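import Vale.Agent.P286EC.Ad

/-!
# Consequences of the group kit: invariant vector fields, the antipode, the invariant integral
-/

set_option linter.all false

namespace Vale.Agent.P286EX

open CategoryTheory Matrix TensorProduct Vale.Agent.P286 Vale.Agent.P286.H710 Vale.Agent.P286E
  Vale.Agent.P286EC

noncomputable section

variable {G : Grp} {A B D : Type} [CommRing A] [Algebra ℂ A] [CommRing B] [Algebra ℂ B]
  [CommRing D] [Algebra ℂ D] {h k : Matrix (Fin G.N) (Fin G.N) B}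

/-- The group kit of `SL_2`. -/
abbrev gkSL2 : GK SL2 := gk2

/-- The group kit of `SO_3`. -/
abbrev gkSO3 : GK SO3 := gk3

/-- The gauge data of a diagram of charts. -/
abbrev gsQ {I : Type} [SmallCategory I] (K : GK G) (D : CD I) (s : ℂ) : GS (QS D G s) := K.gs D s

theorem der_bt (w : Derivation ℂ B B) (a : Fin 3) : (bt G B a).map w = 0 :=
  Matrix.ext fun _ _ => w.map_algebraMap _

theorem der_mul_bt (w : Derivation ℂ B B) (h : Matrix (Fin G.N) (Fin G.N) B) (a : Fin 3) :
    (h * bt G B a).map w = h.map w * bt G B a := der_mul_cm w h _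

theorem der_bt_mul (w : Derivation ℂ B B) (h : Matrix (Fin G.N) (Fin G.N) B) (a : Fin 3) :
    (bt G B a * h).map w = bt G B a * h.map w := der_cm_mul w h _

theorem der_adj (w : Derivation ℂ B B) (hh : G.Pt h) :
    h.adjugate.map w = -(h.adjugate * h.map w * h.adjugate) := by
  have e := der_mul w h.adjugate h
  have e1 : (1 : Matrix (Fin G.N) (Fin G.N) B).map w = 0 := Matrix.ext fun p q => by
    rw [map_apply, Matrix.one_apply]; split_ifs <;> simp
  rw [pt_adj_mul hh, e1] at e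
  rw [← Matrix.neg_mul, ← eq_neg_of_add_eq_zero_left e.symm, Matrix.mul_assoc, pt_mul_adj hh,
    Matrix.mul_one]

namespace GK

variable (K : GK G)

theorem ev_apply (hh : G.Pt h) (p q) : K.ev h hh (K.g p q) = h p q :=
  congrFun (congrFun (K.ev_g h hh) p) q

theorem comp_ev (hh : G.Pt h) (f : B →ₐ[ℂ] D) : f.comp (K.ev h hh) = K.ev (h.map f) (hh.map f) :=
  K.ext _ _ (by rw [K.ev_g]; exact congrArg (·.map f) (K.ev_g h hh))

theorem ev_self : K.ev K.g K.pt = AlgHom.id ℂ _ := K.ext _ _ (K.ev_g _ _)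

theorem eq_ev (φ : K.O.R →ₐ[ℂ] B) : φ = K.ev (K.g.map φ) (K.pt.map φ) :=
  K.ext _ _ (K.ev_g _ _).symm

theorem adjoin_eq : Algebra.adjoin ℂ (Set.range fun p : Fin G.N × Fin G.N => K.g p.1 p.2) = ⊤ := by
  obtain ⟨S, hS⟩ : ∃ S,
    S = Algebra.adjoin ℂ (Set.range fun p : Fin G.N × Fin G.N => K.g p.1 p.2) := ⟨_, rfl⟩
  let g' : Matrix (Fin G.N) (Fin G.N) S :=
    of fun p q => ⟨K.g p q, hS ▸ Algebra.subset_adjoin ⟨(p, q), rfl⟩⟩
  have e : g'.map S.val = K.g := rfl
  have h1 : G.Pt g' := ⟨Subtype.val_injective (by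
      have := map_det' S.val g'
      rw [e, K.pt.det] at this
      exact this.symm), Matrix.map_injective (f := S.val) Subtype.val_injective (by
      change (_ : Matrix _ _ S).map S.val = (_ : Matrix _ _ S).map S.val
      rw [map_mul', map_mul', map_cm, transpose_map, e, K.pt.form])⟩
  rw [← hS, eq_top_iff]
  intro x _
  have h2 : S.val.comp (K.ev g' h1) = AlgHom.id ℂ _ := (K.comp_ev h1 _).trans K.ev_self
  exact (congrArg (· ∈ S) (AlgHom.congr_fun h2 x)).mp (K.ev g' h1 x).2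

theorem induction {P : K.O.R → Prop} (x : K.O.R) (h1 : ∀ c, P (algebraMap ℂ _ c))
    (h2 : ∀ p q, P (K.g p q)) (h3 : ∀ x y, P x → P y → P (x + y))
    (h4 : ∀ x y, P x → P y → P (x * y)) : P x := by
  have hx : x ∈ Algebra.adjoin ℂ (Set.range fun p : Fin G.N × Fin G.N => K.g p.1 p.2) :=
    K.adjoin_eq ▸ Algebra.mem_top
  induction hx using Algebra.adjoin_induction with
  | mem _ hx => obtain ⟨p, rfl⟩ := hx; exact h2 _ _
  | algebraMap c => exact h1 c
  | add x y _ _ hx hy => exact h3 x y hx hy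
  | mul x y _ _ hx hy => exact h4 x y hx hy

/-- Derivations along a homomorphism are determined by the values on the entries. -/
theorem der_ext' (φ : K.O.R →ₐ[ℂ] B) (u v : K.O.R →ₗ[ℂ] B)
    (hu : ∀ x y, u (x * y) = φ x * u y + φ y * u x) (hv : ∀ x y, v (x * y) = φ x * v y + φ y * v x)
    (H : K.g.map u = K.g.map v) (x : K.O.R) : u x = v x := by
  have h1 := hu 1 1
  have h2 := hv 1 1
  rw [mul_one, map_one φ, one_mul, left_eq_add] at h1 h2
  induction x using K.induction with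
  | h1 c => rw [Algebra.algebraMap_eq_smul_one, map_smul, map_smul, h1, h2]
  | h2 p q => exact congrFun (congrFun H p) q
  | h3 x y hx hy => rw [map_add, map_add, hx, hy]
  | h4 x y hx hy => rw [hu, hv, hx, hy]

theorem der_ext {M : Type} [AddCommGroup M] [Module K.O.R M] [Module ℂ M]
    {u v : Derivation ℂ K.O.R M} (H : ∀ p q, u (K.g p q) = v (K.g p q)) : u = v :=
  Derivation.ext_of_adjoin_eq_top _ K.adjoin_eq (by rintro _ ⟨p, rfl⟩; exact H _ _)

theorem L_apply (a p q) : K.L a (K.g p q) = (K.g * bt G K.O.R a) p q :=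
  congrFun (congrFun (K.L_g a) p) q

theorem R_apply (a p q) : K.R a (K.g p q) = (bt G K.O.R a * K.g) p q :=
  congrFun (congrFun (K.R_g a) p) q

theorem br_g (u v : Derivation ℂ K.O.R K.O.R) (p q) :
    ⁅u, v⁆ (K.g p q) = ((K.g.map v).map u - (K.g.map u).map v) p q := rfl

theorem L_R (a b : Fin 3) (x : K.O.R) : K.L a (K.R b x) = K.R b (K.L a x) := by
  have e : ⁅K.L a, K.R b⁆ = 0 := K.der_ext fun p q => by
    rw [br_g, K.R_g, K.L_g, der_mul_bt, der_bt_mul, K.R_g, K.L_g, Matrix.mul_assoc, sub_self]; rfl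
  exact sub_eq_zero.1 (DFunLike.congr_fun e x)

theorem L_L (a b : Fin 3) : ⁅K.L a, K.L b⁆ = ∑ c, (K.κ * eps a b c) • K.L c :=
  K.der_ext fun p q => by
    rw [br_g, K.L_g, K.L_g, der_mul_bt, der_mul_bt, K.L_g, K.L_g, Matrix.mul_assoc,
      Matrix.mul_assoc, ← Matrix.mul_sub, K.br_bt, Matrix.mul_sum, Matrix.sum_apply,
      Fin.sum_univ_three, Fin.sum_univ_three]
    simp only [Matrix.mul_smul, Matrix.smul_apply, Derivation.add_apply, Derivation.smul_apply,
      K.L_apply]

theorem R_R (a b : Fin 3) : ⁅K.R a, K.R b⁆ = ∑ c, (K.κ * eps b a c) • K.R c :=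
  K.der_ext fun p q => by
    rw [br_g, K.R_g, K.R_g, der_bt_mul, der_bt_mul, K.R_g, K.R_g, ← Matrix.mul_assoc,
      ← Matrix.mul_assoc, ← Matrix.sub_mul, K.br_bt, Matrix.sum_mul, Matrix.sum_apply,
      Fin.sum_univ_three, Fin.sum_univ_three]
    simp only [Matrix.smul_mul, Matrix.smul_apply, Derivation.add_apply, Derivation.smul_apply,
      K.R_apply]

theorem L_L' (a b : Fin 3) (x : K.O.R) :
    K.L a (K.L b x) - K.L b (K.L a x) = ∑ c, (K.κ * eps a b c) • K.L c x := by
  have := DFunLike.congr_fun (K.L_L a b) x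
  rw [Fin.sum_univ_three] at this ⊢
  exact this

theorem R_R' (a b : Fin 3) (x : K.O.R) :
    K.R a (K.R b x) - K.R b (K.R a x) = ∑ c, (K.κ * eps b a c) • K.R c x := by
  have := DFunLike.congr_fun (K.R_R a b) x
  rw [Fin.sum_univ_three] at this ⊢
  exact this

theorem L_eq (a : Fin 3) (x : K.O.R) : K.L a x = ∑ b, adm G K.g b a * K.R b x := by
  have e : K.L a = ∑ b, adm G K.g b a • K.R b := K.der_ext fun p q => by
    rw [K.L_apply, K.ad_eq K.pt, Matrix.sum_mul, Matrix.sum_apply, Fin.sum_univ_three,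
      Fin.sum_univ_three]
    simp only [Matrix.smul_mul, Matrix.smul_apply, Derivation.add_apply, Derivation.smul_apply,
      K.R_apply]
  rw [e, Fin.sum_univ_three, Fin.sum_univ_three]; rfl

theorem R_eq (a : Fin 3) (x : K.O.R) : K.R a x = ∑ b, adm G K.g a b * K.L b x := by
  have e : K.R a = ∑ b, adm G K.g a b • K.L b := K.der_ext fun p q => by
    rw [K.R_apply, K.ad_eq' K.pt, Matrix.mul_sum, Matrix.sum_apply, Fin.sum_univ_three,
      Fin.sum_univ_three]
    simp only [Matrix.mul_smul, Matrix.smul_apply, Derivation.add_apply, Derivation.smul_apply,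
      K.L_apply]
  rw [e, Fin.sum_univ_three, Fin.sum_univ_three]; rfl

/-- Every derivation is a combination of the right invariant ones. -/
theorem der_R {M : Type} [AddCommGroup M] [Module K.O.R M] [Module ℂ M] [IsScalarTower ℂ K.O.R M]
    (w : Derivation ℂ K.O.R M) (x : K.O.R) :
    w x = ∑ a, K.R a x • w.liftKaehlerDifferential (thm G K.g a) := by
  induction x using K.induction with
  | h1 c => simp
  | h2 p q => simp only [K.R_apply]; exact K.der_eq K.pt w p q
  | h3 x y hx hy => simp only [map_add, hx, hy, add_smul, Finset.sum_add_distrib]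
  | h4 x y hx hy =>
    simp only [Derivation.leibniz, hx, hy, add_smul, Finset.sum_add_distrib, Finset.smul_sum,
      smul_assoc]

theorem D_eq (x : K.O.R) : KaehlerDifferential.D ℂ K.O.R x = ∑ a, K.R a x • thm G K.g a := by
  rw [K.der_R, Derivation.liftKaehlerDifferential_D]; rfl

theorem dd_R (x : K.O.R) : (Om.dd x : Om ℂ K.O.R) = ∑ a, K.R a x • io1 (thm G K.g a) := by
  rw [Om.dd, K.D_eq]; simp only [map_sum, map_smul]

include K in
/-- The values of a derivation with `w h = (∑ c_a β_a) h` on the Maurer-Cartan form. -/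
theorem thm_of (hh : G.Pt h) (w : Derivation ℂ B B) (c : Fin 3 → B) (e : h.map w = G.ht c * h)
    (a : Fin 3) : w.liftKaehlerDifferential (thm G h a) = c a := by
  refine K.coef_inj hh (m := fun a => w.liftKaehlerDifferential (thm G h a)) (fun p q => ?_) a
  rw [← K.der_eq hh, show w (h p q) = _ from congrFun (congrFun e p) q, ht_eq, Matrix.sum_mul,
    Matrix.sum_apply]
  simp only [Matrix.smul_mul, Matrix.smul_apply, smul_eq_mul, mul_comm]

include K in
theorem der_ht (hh : G.Pt h) (w : Derivation ℂ B B) :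
    h.map w = G.ht (fun a => w.liftKaehlerDifferential (thm G h a)) * h := by
  refine Matrix.ext fun p q => ?_
  rw [map_apply, K.der_eq hh, ht_eq, Matrix.sum_mul, Matrix.sum_apply]
  simp only [Matrix.smul_mul, Matrix.smul_apply, smul_eq_mul, mul_comm]

theorem R_thm (a b : Fin 3) :
    (K.R b).liftKaehlerDifferential (thm G K.g a) = if a = b then 1 else 0 :=
  K.thm_of K.pt _ (fun a => if a = b then 1 else 0) (by rw [K.R_g, ht_eq]; simp) a

theorem L_thm (a b : Fin 3) : (K.L b).liftKaehlerDifferential (thm G K.g a) = adm G K.g a b :=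
  K.thm_of K.pt _ (fun a => adm G K.g a b) (by rw [K.L_g, K.ad_eq K.pt, ht_eq]) a

theorem form_eq (m : Ω[K.O.R⁄ℂ]) :
    m = ∑ a, (K.R a).liftKaehlerDifferential m • thm G K.g a := by
  have e : (LinearMap.id : Ω[K.O.R⁄ℂ] →ₗ[K.O.R] _) =
      ∑ a, (K.R a).liftKaehlerDifferential.smulRight (thm G K.g a) :=
    Derivation.liftKaehlerDifferential_unique _ _ (Derivation.ext fun x => by
      conv_lhs => simp [K.D_eq]
      simp)
  simpa using LinearMap.congr_fun e m

/-- The Maurer-Cartan forms are a basis of the one-forms. -/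
def basis : Module.Basis (Fin 3) K.O.R Ω[K.O.R⁄ℂ] :=
  Module.Basis.mk (v := thm G K.g)
    (Fintype.linearIndependent_iff.2 fun c e b => by
      have := congrArg (K.R b).liftKaehlerDifferential e
      simpa [K.R_thm] using this)
    fun m _ => K.form_eq m ▸ Submodule.sum_mem _ fun a _ =>
      Submodule.smul_mem _ _ (Submodule.subset_span ⟨a, rfl⟩)

theorem basis_apply (a : Fin 3) : K.basis a = thm G K.g a := Module.Basis.mk_apply _ _ a

/-- The antipode. -/
def S : K.O.R →ₐ[ℂ] K.O.R := K.ev _ (K.adj K.pt)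

theorem S_g : K.g.map K.S = K.g.adjugate := K.ev_g _ _

theorem S_S (x : K.O.R) : K.S (K.S x) = x :=
  AlgHom.congr_fun (K.ext (K.S.comp K.S) (AlgHom.id ℂ _) (by
    change (K.g.map K.S).map K.S = K.g
    rw [K.S_g, map_adj, K.S_g, pt_adj_adj K.pt])) x

theorem S_L (a : Fin 3) (x : K.O.R) : K.S (K.L a x) = - K.R a (K.S x) := by
  refine K.der_ext' K.S (K.S.toLinearMap ∘ₗ (K.L a).toLinearMap)
    (-((K.R a).toLinearMap ∘ₗ K.S.toLinearMap)) (fun x y => by simp)
    (fun x y => by simp [add_comm]) ?_ x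
  change (K.g.map (K.L a)).map K.S = -(K.g.map K.S).map (K.R a)
  rw [K.L_g, map_mul', K.S_g, bt_map, der_adj _ K.pt, K.R_g, neg_neg, Matrix.mul_assoc,
    Matrix.mul_assoc, pt_mul_adj K.pt, Matrix.mul_one]

/-- The left factor. -/
abbrev il (B D : Type) [CommRing B] [Algebra ℂ B] [CommRing D] [Algebra ℂ D] : B →ₐ[ℂ] B ⊗[ℂ] D :=
  Algebra.TensorProduct.includeLeft

/-- The right factor. -/
abbrev ir (B D : Type) [CommRing B] [Algebra ℂ B] [CommRing D] [Algebra ℂ D] : D →ₐ[ℂ] B ⊗[ℂ] D :=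
  Algebra.TensorProduct.includeRight

theorem lT_g (w : Derivation ℂ D D) {N : ℕ} (m : Matrix (Fin N) (Fin N) D) :
    (m.map (ir B D)).map (lT B w) = (m.map w).map (ir B D) := rfl

theorem lT_il (w : Derivation ℂ D D) {N : ℕ} (m : Matrix (Fin N) (Fin N) B) :
    (m.map (il B D)).map (lT B w) = 0 := Matrix.ext fun i j => by simp [lT_tmul]

/-- Left translations commute with the left invariant vector fields. -/
theorem lt_L (h : Matrix (Fin G.N) (Fin G.N) B) (φ : K.O.R →ₐ[ℂ] B ⊗[ℂ] K.O.R)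
    (H : K.g.map φ = h.map (il B _) * K.g.map (ir B _)) (a : Fin 3) (x : K.O.R) :
    φ (K.L a x) = lT B (K.L a) (φ x) := by
  refine K.der_ext' φ (φ.toLinearMap ∘ₗ (K.L a).toLinearMap)
    ((lT B (K.L a)).toLinearMap ∘ₗ φ.toLinearMap) (fun x y => by simp) (fun x y => by simp) ?_ x
  change (K.g.map (K.L a)).map φ = (K.g.map φ).map (lT B (K.L a))
  rw [K.L_g, map_mul', bt_map, H, der_mul, lT_il, lT_g, K.L_g, map_mul', bt_map, Matrix.zero_mul,
    zero_add, Matrix.mul_assoc]

/-- Right translations commute with the right invariant vector fields. -/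
theorem rt_R (h : Matrix (Fin G.N) (Fin G.N) B) (φ : K.O.R →ₐ[ℂ] B ⊗[ℂ] K.O.R)
    (H : K.g.map φ = K.g.map (ir B _) * h.map (il B _)) (a : Fin 3) (x : K.O.R) :
    φ (K.R a x) = lT B (K.R a) (φ x) := by
  refine K.der_ext' φ (φ.toLinearMap ∘ₗ (K.R a).toLinearMap)
    ((lT B (K.R a)).toLinearMap ∘ₗ φ.toLinearMap) (fun x y => by simp) (fun x y => by simp) ?_ x
  change (K.g.map (K.R a)).map φ = (K.g.map φ).map (lT B (K.R a))
  rw [K.R_g, map_mul', bt_map, H, der_mul, lT_il, lT_g, K.R_g, map_mul', bt_map, Matrix.mul_zero,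
    add_zero, Matrix.mul_assoc]

/-- The map `(x, y) ↦ x⁻¹ y`. -/
def dv : K.O.R →ₐ[ℂ] K.O.R ⊗[ℂ] K.O.R :=
  K.ev _ (((K.adj K.pt).map (il K.O.R K.O.R)).mul (K.pt.map (ir K.O.R K.O.R)))

theorem dv_g : K.g.map K.dv = K.g.adjugate.map (il _ _) * K.g.map (ir _ _) := K.ev_g _ _

theorem dv_S (x : K.O.R) : K.dv x = Algebra.TensorProduct.comm ℂ _ _ (K.dv (K.S x)) := by
  refine AlgHom.congr_fun (K.ext K.dv ((Algebra.TensorProduct.comm ℂ K.O.R K.O.R).toAlgHom.comp
    (K.dv.comp K.S)) ?_) x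
  change _ = ((K.g.map K.S).map K.dv).map (Algebra.TensorProduct.comm ℂ K.O.R K.O.R).toAlgHom
  rw [K.S_g, map_adj, K.dv_g, adjugate_mul_distrib, ← map_adj, ← map_adj, pt_adj_adj K.pt, map_mul']
  rfl

theorem haar_uniq' (μ : K.O.R →ₗ[ℂ] ℂ)
    (H : ∀ x, TensorProduct.rid ℂ _ (μ.lTensor K.O.R (K.dv x)) = algebraMap ℂ _ (μ x))
    (x : K.O.R) : μ x = K.haar (K.S x) * μ 1 := by
  have e : ∀ z : K.O.R ⊗[ℂ] K.O.R,
      K.haar (TensorProduct.rid ℂ _ (μ.lTensor K.O.R (Algebra.TensorProduct.comm ℂ _ _ z))) =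
        μ (TensorProduct.rid ℂ _ (K.haar.lTensor K.O.R z)) := fun z => by
    induction z using TensorProduct.induction_on with
    | zero => simp
    | add y z hy hz => simp only [map_add, hy, hz]
    | tmul a b => simp [mul_comm]
  have e1 := congrArg K.haar (H x)
  rw [K.dv_S, e, K.haar_l _ _ K.dv_g, Algebra.algebraMap_eq_smul_one,
    Algebra.algebraMap_eq_smul_one, map_smul, map_smul, K.haar_one, smul_eq_mul, smul_eq_mul,
    mul_one] at e1
  exact e1.symm

theorem haar_S (x : K.O.R) : K.haar (K.S x) = K.haar x := by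
  rw [K.haar_uniq' K.haar (K.haar_l _ _ K.dv_g) x, K.haar_one, mul_one]

/-- The uniqueness of the invariant integral. -/
theorem haar_uniq (μ : K.O.R →ₗ[ℂ] ℂ)
    (H : ∀ x, TensorProduct.rid ℂ _ (μ.lTensor K.O.R (K.dv x)) = algebraMap ℂ _ (μ x))
    (x : K.O.R) : μ x = K.haar x * μ 1 := by rw [K.haar_uniq' μ H, K.haar_S]

theorem haar_L (a : Fin 3) (x : K.O.R) : K.haar (K.L a x) = 0 := by
  refine (K.haar_uniq (K.haar ∘ₗ (K.L a).toLinearMap) (fun y => ?_) x).trans (by simp)
  rw [LinearMap.lTensor_comp, LinearMap.comp_apply, ← lT_apply, ← K.lt_L _ _ K.dv_g,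
    K.haar_l _ _ K.dv_g]
  rfl

theorem haar_R (a : Fin 3) (x : K.O.R) : K.haar (K.R a x) = 0 := by
  have e := K.S_L a (K.S x)
  rw [K.S_S] at e
  rw [← neg_eq_zero, ← map_neg, ← e, K.haar_S, K.haar_L]

/-- The integral is invariant under right translations. -/
theorem haar_r (hh : G.Pt h) (φ : K.O.R →ₐ[ℂ] B ⊗[ℂ] K.O.R)
    (H : K.g.map φ = K.g.map (ir B _) * h.map (il B _)) (x : K.O.R) :
    TensorProduct.rid ℂ B (K.haar.lTensor B (φ x)) = algebraMap ℂ B (K.haar x) := by
  let σ : B ⊗[ℂ] K.O.R →ₐ[ℂ] B ⊗[ℂ] K.O.R := Algebra.TensorProduct.map (AlgHom.id ℂ B) K.S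
  have e : ∀ z, K.haar.lTensor B (σ z) = K.haar.lTensor B z := fun z => by
    induction z using TensorProduct.induction_on with
    | zero => simp
    | add y z hy hz => simp only [map_add, hy, hz]
    | tmul a b => simp [σ, K.haar_S]
  have e1 : ∀ m : Matrix (Fin G.N) (Fin G.N) B, (m.map (il B K.O.R)).map σ = m.map (il B _) :=
    fun m => Matrix.ext fun p q => by simp [σ]
  have e2 : ∀ m : Matrix (Fin G.N) (Fin G.N) K.O.R,
      (m.map (ir B K.O.R)).map σ = (m.map K.S).map (ir B _) :=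
    fun m => Matrix.ext fun p q => by simp [σ]
  have e3 := K.haar_l h.adjugate (σ.comp (φ.comp K.S)) (by
    change ((K.g.map K.S).map φ).map σ = _
    rw [K.S_g, map_adj, H, adjugate_mul_distrib, ← map_adj, ← map_adj, map_mul', e1, e2, map_adj K.S,
      K.S_g, pt_adj_adj K.pt]) (K.S x)
  rwa [AlgHom.comp_apply, AlgHom.comp_apply, K.S_S, e, K.haar_S] at e3

theorem const_R (x : K.O.R) (H : ∀ a, K.R a x = 0) : ∃ c : ℂ, x = algebraMap ℂ K.O.R c :=
  K.const x fun a => by simp [K.L_eq, H]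

end GK

end

end Vale.Agent.P286EX
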