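import Vale.Agent.P286EC.GK
import Vale.Agent.P286EX.Cop

/-!
# The adjoint action and the Maurer-Cartan form; the gauge data of the chart diagrams
-/

set_option linter.all false

namespace Vale.Agent.P286EX

open CategoryTheory Matrix TensorProduct Vale.Agent.P286 Vale.Agent.P286.H710 Vale.Agent.P286E
  Vale.Agent.P286EC

noncomputable section

variable {G : Grp} {A B D : Type} [CommRing A] [Algebra ℂ A] [CommRing B] [Algebra ℂ B]
  [CommRing D] [Algebra ℂ D] {h k : Matrix (Fin G.N) (Fin G.N) B}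

theorem bt_map (f : A →ₐ[ℂ] B) (a : Fin 3) : (bt G A a).map f = bt G B a := map_cm f _

theorem adm_map (f : B →ₐ[ℂ] D) (h : Matrix (Fin G.N) (Fin G.N) B) :
    (adm G h).map f = adm G (h.map f) := Matrix.ext fun a b => by
  simp only [adm, map_apply, of_apply, map_smul]
  rw [← map_trace', map_mul', map_mul', map_mul', map_adj, bt_map, bt_map]

theorem pb_thm (f : B →ₐ[ℂ] D) (h : Matrix (Fin G.N) (Fin G.N) B) (a : Fin 3) :
    Om.pb f (io1 (thm G h a)) = io1 (thm G (h.map f) a) := by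
  rw [thm, thm, io1, io1, Om.ι_csmul, Om.ι_csmul, Om.pb_csmul, ← map_adj, ← bt_map f, ← map_mul']
  simp only [map_sum, map_smul, Om.pb_smul]
  exact congrArg _ (Finset.sum_congr rfl fun p _ => Finset.sum_congr rfl fun q _ =>
    congrArg _ (Om.pb_dd f _))

theorem thm_one (a : Fin 3) : thm G (1 : Matrix (Fin G.N) (Fin G.N) B) a = 0 := by
  have : ∀ p q, KaehlerDifferential.D ℂ B ((1 : Matrix (Fin G.N) (Fin G.N) B) p q) = 0 :=
    fun p q => by rw [Matrix.one_apply]; split_ifs <;> simp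
  simp [thm, this]

theorem eps_swap (a b c : Fin 3) : eps a b c = - eps b a c := by
  fin_cases a <;> fin_cases b <;> fin_cases c <;> simp [eps]

theorem eps_cyc (a b c : Fin 3) : eps a b c = eps b c a := by
  fin_cases a <;> fin_cases b <;> fin_cases c <;> simp [eps]

theorem der_cm_mod {M : Type} [AddCommGroup M] [Module B M] [Module ℂ M] [IsScalarTower ℂ B M]
    (w : Derivation ℂ B M) {N : ℕ} (m : Matrix (Fin N) (Fin N) ℂ) (h : Matrix (Fin N) (Fin N) B)
    (p q) : w ((cm B m * h) p q) = ∑ r, cm B m p r • w (h r q) := by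
  simp only [Matrix.mul_apply, map_sum, Derivation.leibniz, cm, map_apply,
    Derivation.map_algebraMap, smul_zero, add_zero]

theorem sum_mul_smul {M : Type} [AddCommGroup M] [Module B M] {N : ℕ} {ι : Type} [Fintype ι]
    (m : Matrix (Fin N) (Fin N) B) (n : ι → Matrix (Fin N) (Fin N) B) (x : ι → M) (p q) :
    ∑ r, m p r • ∑ a, n a r q • x a = ∑ a, (m * n a) p q • x a := by
  simp only [Finset.smul_sum, Matrix.mul_apply, Finset.sum_smul, smul_smul]
  exact Finset.sum_comm

theorem sum_mul_smul' {M : Type} [AddCommGroup M] [Module B M] {N : ℕ} {ι : Type} [Fintype ι]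
    (m : Matrix (Fin N) (Fin N) B) (n : ι → Matrix (Fin N) (Fin N) B) (x : ι → M) (p q) :
    ∑ r, m r q • ∑ a, n a p r • x a = ∑ a, (n a * m) p q • x a := by
  simp only [Finset.smul_sum, Matrix.mul_apply, Finset.sum_smul, smul_smul, mul_comm]
  exact Finset.sum_comm

namespace GK

variable (K : GK G)
include K

theorem tr_bt' (a b : Fin 3) : (2⁻¹ : ℂ) • trace (bt G B a * bt G B b) = if a = b then 1 else 0 := by
  rw [bt, bt, ← cm_mul, trace_cm, K.tr, Algebra.smul_def, ← map_mul]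
  split_ifs <;> simp

theorem br_bt (a b : Fin 3) :
    bt G B a * bt G B b - bt G B b * bt G B a = ∑ c, (K.κ * eps a b c) • bt G B c := by
  rw [bt, bt, ← cm_mul, ← cm_mul, ← cm_sub, K.br, cm_sum]
  exact Finset.sum_congr rfl fun c _ => cm_smul _ _

theorem tr_ht' (Y : Fin 3 → B) (a : Fin 3) : (2⁻¹ : ℂ) • trace (bt G B a * G.ht Y) = Y a := by
  rw [ht_eq, Matrix.mul_sum, trace_sum, Finset.smul_sum]
  simp only [Matrix.mul_smul, trace_smul, smul_comm (2⁻¹ : ℂ), K.tr_bt']
  simp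

theorem tr_ht_ht (Y Z : Fin 3 → B) : (2⁻¹ : ℂ) • trace (G.ht Y * G.ht Z) = Y ⬝ᵥ Z := by
  conv_lhs => rw [ht_eq G Y, Matrix.sum_mul, trace_sum, Finset.smul_sum]
  exact Finset.sum_congr rfl fun a _ => by
    rw [Matrix.smul_mul, trace_smul, smul_comm, K.tr_ht', smul_eq_mul]

theorem ht_adm_mul (hh : G.Pt h) (Y : Fin 3 → B) : G.ht (adm G h *ᵥ Y) * h = h * G.ht Y :=
  (K.mul_ht hh Y).symm

theorem eq_adm (hh : G.Pt h) {Y Z : Fin 3 → B} (e : G.ht Z * h = h * G.ht Y) :
    Z = adm G h *ᵥ Y :=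
  K.ht_inj (by rw [K.ht_adm hh, ← e, Matrix.mul_assoc, pt_mul_adj hh, Matrix.mul_one])

omit K in
theorem mat_ext {u w : Matrix (Fin 3) (Fin 3) B} (h : ∀ ξ, u *ᵥ ξ = w *ᵥ ξ) : u = w :=
  Matrix.toLin'.injective (LinearMap.ext fun ξ => by rw [toLin'_apply, toLin'_apply, h])

theorem adm_one : adm G (1 : Matrix (Fin G.N) (Fin G.N) B) = 1 :=
  mat_ext fun Y => (K.eq_adm (Grp.Pt.one G) (by
    rw [one_mulVec, Matrix.one_mul, Matrix.mul_one])).symm

theorem adm_mul (hh : G.Pt h) (hk : G.Pt k) : adm G (h * k) = adm G h * adm G k :=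
  mat_ext fun Y => (K.eq_adm (hh.mul hk) (by
    rw [← mulVec_mulVec, ← Matrix.mul_assoc, K.ht_adm_mul hh, Matrix.mul_assoc, K.ht_adm_mul hk,
      Matrix.mul_assoc])).symm

theorem adm_mul_adj (hh : G.Pt h) : adm G h * adm G h.adjugate = 1 := by
  rw [← K.adm_mul hh (pt_adj hh), pt_mul_adj hh, K.adm_one]

theorem adm_adj_mul (hh : G.Pt h) : adm G h.adjugate * adm G h = 1 := by
  rw [← K.adm_mul (pt_adj hh) hh, pt_adj_mul hh, K.adm_one]

omit K in
theorem adm_adj (hh : G.Pt h) : adm G h.adjugate = (adm G h)ᵀ := Matrix.ext fun a b => by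
  simp only [adm, of_apply, transpose_apply]
  rw [pt_adj_adj hh, Matrix.mul_assoc _ (bt G B b), trace_mul_comm]
  simp only [Matrix.mul_assoc]

theorem adm_orth (hh : G.Pt h) : (adm G h)ᵀ * adm G h = 1 := by
  rw [← adm_adj hh, K.adm_adj_mul hh]

theorem adm_orth' (hh : G.Pt h) : adm G h * (adm G h)ᵀ = 1 := by
  rw [← adm_adj hh, K.adm_mul_adj hh]

theorem ad_eq' (hh : G.Pt h) (a : Fin 3) : bt G B a * h = h * ∑ b, adm G h a b • bt G B b := by
  have e := K.ad_eq (pt_adj hh) a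
  rw [adm_adj hh] at e
  have e' := congrArg (fun x => h * x * h) e
  simp only [← Matrix.mul_assoc, pt_mul_adj hh, Matrix.one_mul] at e'
  rw [e', Matrix.mul_assoc, pt_adj_mul hh, Matrix.mul_one]
  rfl

/-- The adjoint action preserves the bracket. -/
theorem adm_eps (hh : G.Pt h) (a b d : Fin 3) : ∑ c, eps a b c • adm G h d c =
    ∑ a', ∑ b', eps a' b' d • (adm G h a' a * adm G h b' b) := by
  have e : ∀ a b, h * (bt G B a * bt G B b) =
      (∑ a', ∑ b', (adm G h a' a * adm G h b' b) • (bt G B a' * bt G B b')) * h := fun a b => by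
    rw [← Matrix.mul_assoc, K.ad_eq hh, Matrix.mul_assoc, K.ad_eq hh, ← Matrix.mul_assoc,
      Finset.sum_mul_sum]
    simp only [smul_mul_smul_comm]
  have e1 : G.ht (fun d => K.κ • ∑ a', ∑ b', eps a' b' d • (adm G h a' a * adm G h b' b)) * h =
      h * G.ht (fun c => algebraMap ℂ B (K.κ * eps a b c)) := by
    have e2 : G.ht (fun c => algebraMap ℂ B (K.κ * eps a b c)) =
        bt G B a * bt G B b - bt G B b * bt G B a := by
      rw [K.br_bt, ht_eq]; simp only [algebraMap_smul]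
    rw [e2, Matrix.mul_sub, e, e b a, ← Matrix.sub_mul,
      Finset.sum_comm (f := fun b' a' => (adm G h b' b * adm G h a' a) • _),
      ← Finset.sum_sub_distrib]
    simp only [← Finset.sum_sub_distrib, mul_comm (adm G h _ b), ← smul_sub, K.br_bt, ht_eq,
      Finset.smul_sum, Finset.sum_smul]
    rw [Finset.sum_comm]
    refine congrArg (· * h) (Finset.sum_congr rfl fun a' _ => ?_)
    rw [Finset.sum_comm]
    exact Finset.sum_congr rfl fun b' _ => Finset.sum_congr rfl fun d _ => by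
      rw [smul_smul, smul_assoc, smul_comm]
  have e3 := congrArg (K.κ⁻¹ • ·) (congrFun (K.eq_adm hh e1) d)
  simp only [smul_smul, inv_mul_cancel₀ K.κ_ne, one_smul] at e3
  rw [e3, mulVec, dotProduct, Finset.smul_sum]
  exact Finset.sum_congr rfl fun c _ => by
    rw [mul_comm, ← Algebra.smul_def, smul_smul, inv_mul_cancel_left₀ K.κ_ne]

section Mod

variable {M : Type} [AddCommGroup M] [Module B M] [Module ℂ M] [IsScalarTower ℂ B M]

theorem coef (hh : G.Pt h) (m : Fin 3 → M) (b : Fin 3) : (2⁻¹ : ℂ) • ∑ p, ∑ q,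
    (h.adjugate * bt G B b) q p • ∑ a, (bt G B a * h) p q • m a = m b := by
  rw [Finset.sum_comm]
  simp only [sum_mul_smul]
  rw [Finset.sum_comm, Finset.smul_sum]
  have e : ∀ a, (2⁻¹ : ℂ) • ∑ q, (h.adjugate * bt G B b * (bt G B a * h)) q q • m a =
      (if b = a then (1 : B) else 0) • m a := fun a => by
    rw [← Finset.sum_smul, ← smul_assoc, ← K.tr_bt']
    refine congrArg (fun x : B => ((2⁻¹ : ℂ) • x) • m a) ?_
    change trace (h.adjugate * bt G B b * (bt G B a * h)) = _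
    rw [← Matrix.mul_assoc, trace_mul_comm, ← Matrix.mul_assoc, ← Matrix.mul_assoc, pt_mul_adj hh,
      Matrix.one_mul]
  simp [e]

theorem coef_inj (hh : G.Pt h) {m m' : Fin 3 → M}
    (e : ∀ p q, ∑ a, (bt G B a * h) p q • m a = ∑ a, (bt G B a * h) p q • m' a) (b : Fin 3) :
    m b = m' b := by
  rw [← K.coef hh m b, ← K.coef hh m' b]
  simp only [e]

/-- Derivations with values in a module. -/
theorem der_eq (hh : G.Pt h) (w : Derivation ℂ B M) (p q) :
    w (h p q) = ∑ a, (bt G B a * h) p q • w.liftKaehlerDifferential (thm G h a) := by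
  rw [← w.liftKaehlerDifferential_comp_D, K.th_eq hh]
  simp only [map_sum, map_smul]

end Mod

theorem thm_mul (hh : G.Pt h) (hk : G.Pt k) (a : Fin 3) :
    thm G (h * k) a = thm G h a + ∑ b, adm G h a b • thm G k b := by
  refine K.coef_inj (hh.mul hk) (m' := fun a => thm G h a + ∑ b, adm G h a b • thm G k b)
    (fun p q => ?_) a
  rw [← K.th_eq (hh.mul hk), Matrix.mul_apply, map_sum]
  simp only [Derivation.leibniz, Finset.sum_add_distrib, smul_add, K.th_eq hh, K.th_eq hk]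
  rw [sum_mul_smul, sum_mul_smul', add_comm]
  simp only [← Matrix.mul_assoc, K.ad_eq hh, Matrix.sum_mul, Matrix.smul_mul, Matrix.sum_apply,
    Matrix.smul_apply, Finset.sum_smul, Finset.smul_sum, smul_smul, smul_eq_mul]
  rw [Finset.sum_comm]
  simp only [mul_comm]

theorem thm_adj (hh : G.Pt h) (a : Fin 3) :
    thm G h.adjugate a = - ∑ b, adm G h b a • thm G h b := by
  have e := K.thm_mul (pt_adj hh) hh a
  rw [pt_adj_mul hh, thm_one, adm_adj hh] at e
  exact eq_neg_of_add_eq_zero_left e.symm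

theorem dd_eq (hh : G.Pt h) (m : Matrix (Fin G.N) (Fin G.N) ℂ) (p q) :
    (Om.dd ((cm B m * h) p q) : Om ℂ B) =
      ∑ b, (cm B m * (bt G B b * h)) p q • io1 (thm G h b) := by
  rw [Om.dd, der_cm_mod]
  simp only [K.th_eq hh]
  rw [sum_mul_smul]
  simp only [map_sum, map_smul]

/-- **The Maurer-Cartan equation.** -/
theorem mc (hh : G.Pt h) (c : Fin 3) : Om.d (io1 (thm G h c)) =
    ∑ a, ∑ b, (K.κ / 2 * eps a b c) • (io1 (thm G h a) * io1 (thm G h b)) := by
  refine K.coef_inj hh (m := fun c => Om.d (io1 (thm G h c))) (m' := fun c =>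
    ∑ a, ∑ b, (K.κ / 2 * eps a b c) • (io1 (thm G h a) * io1 (thm G h b))) (fun p q => ?_) c
  have e := congrArg Om.d (K.dd_eq hh 1 p q)
  rw [Om.d_dd, Om.d_sum, cm_one] at e
  simp only [Matrix.one_mul, Om.d_smul, Finset.sum_add_distrib] at e
  have e1 : ∀ a, (Om.dd ((bt G B a * h) p q) : Om ℂ B) * io1 (thm G h a) =
      - ∑ b, (bt G B a * (bt G B b * h)) p q • (io1 (thm G h a) * io1 (thm G h b)) := fun a => by
    rw [bt, K.dd_eq hh, Finset.sum_mul, ← Finset.sum_neg_distrib]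
    exact Finset.sum_congr rfl fun b _ => by
      rw [smul_mul_assoc, eq_neg_of_add_eq_zero_left (ExteriorAlgebra.ι_add_mul_swap _ _),
        smul_neg]
  simp only [e1, Finset.sum_neg_distrib] at e
  obtain ⟨S, hS⟩ : ∃ S, S = ∑ a, ∑ b,
    (bt G B a * (bt G B b * h)) p q • (io1 (thm G h a) * io1 (thm G h b)) := ⟨_, rfl⟩
  have e2 : -S = ∑ a, ∑ b,
      (bt G B b * (bt G B a * h)) p q • (io1 (thm G h a) * io1 (thm G h b)) := by
    rw [hS, Finset.sum_comm, ← Finset.sum_neg_distrib]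
    refine Finset.sum_congr rfl fun a _ => ?_
    rw [← Finset.sum_neg_distrib]
    exact Finset.sum_congr rfl fun b _ => by
      rw [eq_neg_of_add_eq_zero_left (ExteriorAlgebra.ι_add_mul_swap (thm G h a) _), smul_neg]
  have e3 : S - -S = ∑ a, ∑ b, ∑ c, (K.κ * eps a b c) • (bt G B c * h) p q •
      (io1 (thm G h a) * io1 (thm G h b)) := by
    rw [e2, hS, ← Finset.sum_sub_distrib]
    refine Finset.sum_congr rfl fun a _ => ?_
    rw [← Finset.sum_sub_distrib]
    refine Finset.sum_congr rfl fun b _ => ?_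
    rw [← sub_smul, ← Matrix.sub_apply, ← Matrix.mul_assoc, ← Matrix.mul_assoc, ← Matrix.sub_mul,
      K.br_bt, Matrix.sum_mul, Matrix.sum_apply, Finset.sum_smul]
    simp only [Matrix.smul_mul, Matrix.smul_apply, smul_assoc]
  rw [← hS, ← sub_eq_add_neg, eq_comm, sub_eq_zero] at e
  have e4 : S = (2⁻¹ : ℂ) • (S - -S) := by module
  rw [e, e4, e3]
  simp only [Finset.smul_sum]
  rw [Finset.sum_comm (f := fun c a => ∑ b, (bt G B c * h) p q •
    (K.κ / 2 * eps a b c) • (io1 (thm G h a) * io1 (thm G h b)))]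
  refine Finset.sum_congr rfl fun a _ => ?_
  rw [Finset.sum_comm]
  exact Finset.sum_congr rfl fun c _ => Finset.sum_congr rfl fun b _ => by
    rw [smul_smul, smul_comm, ← mul_assoc, mul_comm 2⁻¹, ← div_eq_mul_inv]

end GK

variable {I : Type} [SmallCategory I]

theorem good_QS (D : CD I) (G : Grp) (s : ℂ) : Good (QS D G s) where
  fid _ := rfl
  fcomp _ _ := rfl
  unit {_ Y} φ := (D.r_unit (QM.α φ)).map Y.x
  dl_id X := (congrArg X.x (D.r_id X.i)).trans (map_one _)
  dl_comp {_ _ Z} φ ψ := (congrArg Z.x (D.r_comp (QM.α φ) (QM.α ψ))).trans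
    ((map_mul _ _ _).trans (congrArg (· * _) (QM.hx ψ _).symm))
  cen _ := rfl

/-- The gauge data of a diagram of charts. -/
def GK.gs (K : GK G) (D : CD I) (s : ℂ) : GS (QS D G s) where
  good := good_QS D G s
  κ := K.κ
  ad φ := adm G (QM.h φ)
  th φ := thm G (QM.h φ)
  ad_id _ := K.adm_one
  ad_comp φ ψ := (K.adm_mul (QM.pt ψ) ((QM.pt φ).map (QM.φ ψ))).trans
    (congrArg _ (adm_map _ _).symm)
  th_id _ := thm_one
  th_comp φ ψ a := by
    refine (congrArg io1 (K.thm_mul (QM.pt ψ) ((QM.pt φ).map (QM.φ ψ)) a)).trans ?_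
    simp only [io1, map_add, map_sum, map_smul]
    exact congrArg _ (Finset.sum_congr rfl fun b _ => congrArg _ (pb_thm _ _ b).symm)
  mc φ := K.mc (QM.pt φ)

end

end Vale.Agent.P286EX
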