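import Vale.Agent.P286EC.Av0
import Vale.Agent.P286EXK.Mk

/-!
# The average on the forms on the group with values in a de Rham complex
-/

set_option linter.all false

namespace Vale.Agent.P286EX

open CategoryTheory Matrix TensorProduct Vale.Agent.P286 Vale.Agent.P286.St Vale.Agent.P286.H847
  Vale.Agent.P286.H710 Vale.Agent.P286.H697 Vale.Agent.P286E Vale.Agent.P286EC

noncomputable section

/-- The forms whose action commutes with an additive map. -/
def cmR {B : Type} [CommRing B] [Algebra ℂ B] {L : OmM B} (p : L.M.V →ₗ[ℂ] L.M.V) :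
    Subring (Om ℂ B) where
  carrier := {w | ∀ z, p (w • z) = w • p z}
  mul_mem' {a b} ha hb z := by rw [mul_smul, ha, hb, mul_smul]
  one_mem' z := by rw [one_smul, one_smul]
  add_mem' {a b} ha hb z := by rw [add_smul, map_add, ha, hb, add_smul]
  zero_mem' z := by rw [zero_smul, zero_smul, map_zero]
  neg_mem' {a} ha z := by rw [neg_smul, map_neg, ha, neg_smul]

variable {G : Grp} (K : GK G)

/-- The integral over the group. -/
def GK.hT (A : Type) [CommRing A] [Algebra ℂ A] : A ⊗[ℂ] K.O.R →ₗ[ℂ] A :=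
  (TensorProduct.rid ℂ A).toLinearMap ∘ₗ K.haar.lTensor A

theorem GK.hT_tmul {A : Type} [CommRing A] [Algebra ℂ A] (a : A) (f : K.O.R) :
    K.hT A (a ⊗ₜ[ℂ] f) = K.haar f • a := rfl

/-- The pull-back of the Maurer-Cartan forms along a left translation. -/
theorem GK.pb_tO {A : Type} [CommRing A] [Algebra ℂ A] {h : Matrix (Fin G.N) (Fin G.N) A}
    (hh : G.Pt h) (φ : K.O.R →ₐ[ℂ] A ⊗[ℂ] K.O.R)
    (e : K.g.map φ = h.map (cL K A) * K.g.map (cR K A)) (a : Fin 3) :
    Om.pb φ (K.tO a) = Om.pb (cL K A) (io1 (thm G h a)) +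
      ∑ b, Om.pb (cL K A) (algebraMap _ _ (adm G h a b)) * Om.pb (cR K A) (K.tO b) := by
  rw [pb_thm, e, K.thm_mul (hh.map _) (K.pt.map _), pb_thm, io1, map_add, map_sum, ← adm_map]
  refine congrArg _ (Finset.sum_congr rfl fun b _ => ?_)
  rw [map_smul, pb_thm, Om.pb_alg, Algebra.smul_def]
  rfl

variable {K} {I : Type} [SmallCategory I] {D : CD I} {s : ℂ}

variable (K) in
/-- The integral over the group of a function on the coproduct. -/
def qH (s : ℂ) (X : QO D) : RQ G s (cop K X) →ₗ[ℂ] RQ G s X := K.hT X.A.R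

theorem cop_ind {X : QO D} {P : RQ G s (cop K X) → Prop} (z : RQ G s (cop K X)) (h0 : P 0)
    (h1 : ∀ a f, P (qf (inl K s X) a * qR K s X f)) (h2 : ∀ x y, P x → P y → P (x + y)) : P z :=
  TensorProduct.induction_on (motive := P) z h0
    (fun a f => (congrArg P (iA_mul_iB a f)).mp (h1 a f)) h2

theorem qH_mul {X : QO D} (a : RQ G s X) (f : K.O.R) :
    qH K s X (qf (inl K s X) a * qR K s X f) = K.haar f • a :=
  congrArg (K.hT X.A.R) (iA_mul_iB a f)

theorem copM_g {X Y : QO D} (u : Ar G s X Y) : K.g.map ((qf (copM K u)).comp (qR K s X)) =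
    (QM.h u).adjugate.map (cL K Y.A.R) * K.g.map (cR K Y.A.R) :=
  (copM_cg K u).trans (congrArg (· * cg K Y) (adj_map _ _).symm)

theorem qH_copM {X Y : QO D} (u : Ar G s X Y) (f : K.O.R) :
    qH K s Y (qf (copM K u) (qR K s X f)) = algebraMap ℂ _ (K.haar f) :=
  K.haar_l _ ((qf (copM K u)).comp (qR K s X)) (copM_g u) f

theorem θ_inr (xd : XD D) (X : QO D) (a : Fin 3) :
    (K.gs D s).θ (inr K xd s X) a = Om.pb (qR K s X) (K.tO a) := (pb_thm _ _ a).symm

theorem thS_inr (xd : XD D) (X : QO D) (S : Finset (Fin 3)) :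
    thS ((K.gs D s).θ (inr K xd s X)) S = Om.pb (qR K s X) (K.fb S) := by
  rw [K.fb_eq, map_thS]
  exact congrArg (thS · S) (funext (θ_inr xd X))

theorem pb_copM {X Y : QO D} (u : Ar G s X Y) (a : Fin 3) :
    Om.pb (qf (copM K u)) (Om.pb (qR K s X) (K.tO a)) =
      Om.pb (qf (inl K s Y)) (io1 (thm G (qh u).adjugate a)) +
        ∑ b, Om.pb (qf (inl K s Y)) (algebraMap _ _ (adm G (qh u).adjugate a b)) *
          Om.pb (qR K s Y) (K.tO b) :=
  (Om.pb_pb _ _ _).trans (K.pb_tO (K.adj (QM.pt u)) _ (copM_g u) a)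

namespace HG

variable (H : HG (K.gs D s)) {X Y : QO D}

theorem ke_csmul (c : ℂ) (w : Om ℂ K.O.R) (y : (H.F X).M.V) :
    H.ke X w (c • y) = c • H.ke X w y := KV.el_csmul c w y

theorem csmul_ke (c : ℂ) (w : Om ℂ K.O.R) (y : (H.F X).M.V) :
    H.ke X (c • w) y = c • H.ke X w y := KV.csmul_el c w y

theorem zero_ke (y : (H.F X).M.V) : H.ke X 0 y = 0 := KV.zero_el y

theorem sum_ke {ι : Type} (t : Finset ι) (w : ι → Om ℂ K.O.R) (y : (H.F X).M.V) :
    H.ke X (∑ i ∈ t, w i) y = ∑ i ∈ t, H.ke X (w i) y := TensorProduct.sum_tmul t w y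

theorem dd_ke (a : RQ G s X) (w : Om ℂ K.O.R) (y : (H.F X).M.V) :
    (Om.dd (qf (inl K s X) a) : Om ℂ (RQ G s (cop K X))) • H.ke X w y =
      H.ke X (Om.sg w) ((Om.dd a : Om ℂ (RQ G s X)) • y) :=
  ddL_kel (A := RQ G s X) (b := bT (QS D G s) X) (M := H.K X) a w y

/-- The integrals of the coefficients. -/
def kc (X : QO D) (S : Finset (Fin 3)) : (H.KV X).M.V →ₗ[ℂ] (H.F X).M.V :=
  (TensorProduct.lid ℂ (H.F X).M.V).toLinearMap ∘ₗ (K.cO S).rTensor (H.F X).M.V

theorem kc_ke (S : Finset (Fin 3)) (w : Om ℂ K.O.R) (y : (H.F X).M.V) :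
    H.kc X S (H.ke X w y) = K.cO S w • y := rfl

/-- The average. -/
def kav (X : QO D) : (H.KV X).M.V →ₗ[ℂ] (H.KV X).M.V := K.pO.rTensor (H.F X).M.V

theorem kav_ke (w : Om ℂ K.O.R) (y : (H.F X).M.V) : H.kav X (H.ke X w y) = H.ke X (K.pO w) y := rfl

theorem avg_eq (xd : XD D) (z : (H.KV X).M.V) :
    avg ((K.gs D s).θ (inr K xd s X)) (H.jk X).f (H.kc X) z = H.kav X z := by
  induction z using H.KV_ind with
  | zero => simp [avg]
  | el w y =>
    rw [kav_ke, K.pO_apply, sum_ke]
    refine Finset.sum_congr rfl fun S _ => ?_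
    rw [thS_inr, ← ke_eq, kc_ke, ke_csmul, csmul_ke]
  | add x y hx hy =>
    rw [map_add, ← hx, ← hy]
    simp only [avg, map_add, smul_add, Finset.sum_add_distrib]

theorem kav_d (z : (H.KV X).M.V) : H.kav X ((H.KV X).M.d z) = (H.KV X).M.d (H.kav X z) := by
  induction z using H.KV_ind with
  | zero => simp only [map_zero]
  | el w y => rw [d_ke, map_add, kav_ke, kav_ke, kav_ke, d_ke, K.pO_d, K.pO_sg]
  | add x y hx hy => simp only [map_add, hx, hy]

theorem kav_R {η : Om ℂ K.O.R} (h : η ∈ K.Lm) : Om.pb (qR K s X) η ∈ cmR (H.kav X) := fun z => by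
  induction z using H.KV_ind with
  | zero => simp only [smul_zero, map_zero]
  | el w y => rw [qR_ke, kav_ke, kav_ke, qR_ke, K.pO_mul h]
  | add x y hx hy => simp only [smul_add, map_add, hx, hy]

theorem kav_L (w : Om ℂ (RQ G s X)) : Om.pb (qf (inl K s X)) w ∈ cmR (H.kav X) := by
  induction w using Om.induction with
  | alg a =>
    intro z
    rw [Om.pb_alg, OmM.asmul, OmM.asmul]
    induction z using H.KV_ind with
    | zero => simp only [smul_zero, map_zero]
    | el w y => rw [inl_ke, kav_ke, kav_ke, inl_ke]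
    | add x y hx hy => simp only [smul_add, map_add, hx, hy]
  | dd a =>
    intro z
    rw [Om.pb_dd]
    induction z using H.KV_ind with
    | zero => simp only [smul_zero, map_zero]
    | el w y => rw [dd_ke, kav_ke, kav_ke, dd_ke, K.pO_sg]
    | add x y hx hy => simp only [smul_add, map_add, hx, hy]
  | mul x y hx hy => rw [map_mul]; exact mul_mem hx hy
  | add x y hx hy => rw [map_add]; exact add_mem hx hy

theorem mul_jk (a : RQ G s X) (f : K.O.R) (y : (H.F X).M.V) :
    (qf (inl K s X) a * qR K s X f) • (H.jk X).f y = H.ke X (algebraMap _ _ f) (a • y) := by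
  rw [mul_smul, jk_apply, qR_smul_ke, inl_ke, Algebra.algebraMap_eq_smul_one]

theorem kav_jk (z : RQ G s (cop K X)) (y : (H.F X).M.V) :
    H.kav X (z • (H.jk X).f y) = (H.jk X).f (qH K s X z • y) := by
  induction z using cop_ind with
  | h0 => simp only [zero_smul, map_zero]
  | h1 a f => rw [mul_jk, kav_ke, K.pO_alg, qH_mul, csmul_ke, smul_assoc, map_smul, jk_apply]
  | h2 a b ha hb => simp only [add_smul, map_add, ha, hb]

/-- The coefficient of degree `0` is the integral. -/
theorem kc_jk (z : RQ G s (cop K X)) (y : (H.F X).M.V) :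
    H.kc X ∅ (z • (H.jk X).f y) = qH K s X z • y := by
  induction z using cop_ind with
  | h0 => simp only [zero_smul, map_zero]
  | h1 a f => rw [mul_jk, kc_ke, K.cO_alg, qH_mul, smul_assoc]
  | h2 a b ha hb => simp only [add_smul, map_add, ha, hb]

theorem kc_R (f : K.O.R) (y : (H.F X).M.V) :
    H.kc X ∅ (qR K s X f • (H.jk X).f y) = K.haar f • y := by
  rw [jk_apply, qR_smul_ke, kc_ke, ← Algebra.algebraMap_eq_smul_one, K.cO_alg]

theorem kc_L (S : Finset (Fin 3)) (a : RQ G s X) (z : (H.KV X).M.V) :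
    H.kc X S (qf (inl K s X) a • z) = a • H.kc X S z := by
  induction z using H.KV_ind with
  | zero => simp only [smul_zero, map_zero]
  | el w y => rw [inl_ke, kc_ke, kc_ke, smul_comm]
  | add x y hx hy => simp only [smul_add, map_add, hx, hy]

theorem kc_gr (S : Finset (Fin 3)) (m : ℤ) (z : (H.KV X).M.V) (hz : z ∈ (H.KV X).M.gr m) :
    H.kc X S z ∈ (H.F X).M.gr (m - S.card) := by
  refine H.KV_gr_ind (Q := fun z => H.kc X S z ∈ (H.F X).M.gr (m - S.card)) ?_ ?_ ?_ hz
  · rw [map_zero]; exact zero_mem _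
  · intro p j e w hw y hy
    rw [kc_ke]
    by_cases h : S.card = p
    · rw [← e, h, add_sub_cancel_left]
      exact Submodule.smul_mem _ _ hy
    · rw [K.cO_gr hw h, zero_smul]; exact zero_mem _
  · intro x y hx hy
    rw [map_add]; exact add_mem hx hy

/-- The average commutes with all transition maps. -/
theorem kav_kvt (u : Ar G s X Y) (z : (H.KV X).M.V) :
    H.kav Y (H.kvt u z) = H.kvt u (H.kav X z) := by
  induction z using H.KV_ind with
  | zero => simp only [map_zero]
  | add x y hx hy => simp only [map_add, hx, hy]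
  | el w y =>
    induction w using K.om_ind with
    | h0 => simp only [zero_ke, map_zero]
    | h2 a b ha hb => simp only [add_ke, map_add, ha, hb]
    | h1 f S =>
      have e : Om.pb (qf (copM K u)) (Om.pb (qR K s X) (K.fb S)) ∈ cmR (H.kav Y) := by
        rw [K.fb_eq, map_thS, map_thS]
        refine thS_mem _ (fun a => ?_) S
        rw [pb_copM]
        exact add_mem (H.kav_L _) (sum_mem fun b _ => mul_mem (H.kav_L _) (H.kav_R (K.tO_mem b)))
      rw [kav_ke, K.pO_fb, csmul_ke, map_smul, kvt_el, kvt_el, Om.pb_smul, Om.pb_smul, smul_assoc,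
        ← OmM.asmul, smul_smul, Algebra.commutes, mul_smul, e, OmM.asmul, kav_jk, qH_copM,
        algebraMap_smul, map_smul, OmF.Coch.smul_comm']

/-- **The averaging data.** -/
def avK (xd : XD D) (X : QO D) :
    AV (qf (inl K s X)) ((K.gs D s).θ (inr K xd s X)) (H.F X) (H.KV X) where
  jk := H.jk X
  jk_smul := H.jk_smul
  c := H.kc X
  c_th S T y := by
    rw [thS_inr, ← ke_eq, kc_ke, K.cO_fb']
    split_ifs
    exacts [one_smul _ _, zero_smul _ _]
  c_gr := H.kc_gr
  av_d y := by rw [avg_eq, avg_eq, kav_d]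
  av_θ a y := by rw [avg_eq, avg_eq, θ_inr, H.kav_R (K.tO_mem a)]
  av_pb w y := by rw [avg_eq, avg_eq, H.kav_L w]

theorem avK_jk (xd : XD D) (X : QO D) : (H.avK xd X).jk = H.jk X := rfl

theorem avK_c (xd : XD D) (X : QO D) : (H.avK xd X).c = H.kc X := rfl

theorem avK_av (xd : XD D) (z : (H.KV X).M.V) : (H.avK xd X).av z = H.kav X z := H.avg_eq xd z

theorem av_kvt (xd : XD D) (u : Ar G s X Y) (z : (H.KV X).M.V) :
    (H.avK xd Y).av (H.kvt u z) = H.kvt u ((H.avK xd X).av z) := by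
  rw [avK_av, avK_av, kav_kvt]

end HG

end

end Vale.Agent.P286EX
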