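import Vale.Agent.P286.H761.Tot

/-!
# The cohomology of a total whose rows of cohomology are exact in positive levels
-/

set_option linter.all false

namespace Vale.Agent.P286EC

open Vale.Agent.P286.H847 Vale.Agent.P286.H847.GD Vale.Agent.P286.H761

noncomputable section

/-- The element `x` is a boundary of degree `m`. -/
def Bd (M : GD) (m : ℤ) (x : M.V) : Prop := ∃ y ∈ M.gr (m - 1), M.d y = x

/-- The element `x` is a cycle of degree `m`. -/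
def Cy (M : GD) (m : ℤ) (x : M.V) : Prop := x ∈ M.gr m ∧ M.d x = 0

theorem Bd.zero (M : GD) (m : ℤ) : Bd M m 0 := ⟨0, zero_mem _, map_zero _⟩

theorem Bd.add {M : GD} {m : ℤ} {x y : M.V} (h : Bd M m x) (h' : Bd M m y) : Bd M m (x + y) := by
  obtain ⟨a, ha, rfl⟩ := h
  obtain ⟨b, hb, rfl⟩ := h'
  exact ⟨a + b, add_mem ha hb, map_add _ _ _⟩

theorem Bd.smul {M : GD} {m : ℤ} {x : M.V} (h : Bd M m x) (c : ℂ) : Bd M m (c • x) := by
  obtain ⟨a, ha, rfl⟩ := h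
  exact ⟨c • a, Submodule.smul_mem _ c ha, map_smul _ _ _⟩

theorem Bd.neg {M : GD} {m : ℤ} {x : M.V} (h : Bd M m x) : Bd M m (-x) :=
  neg_one_smul ℂ x ▸ h.smul (-1)

theorem Bd.sub {M : GD} {m : ℤ} {x y : M.V} (h : Bd M m x) (h' : Bd M m y) : Bd M m (x - y) :=
  sub_eq_add_neg x y ▸ h.add h'.neg

theorem Bd.map {M N : GD} (u : Hom M N) {m : ℤ} {x : M.V} (h : Bd M m x) : Bd N m (u.f x) := by
  obtain ⟨a, ha, rfl⟩ := h
  exact ⟨u.f a, u.deg _ _ ha, (u.comm a).symm⟩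

theorem Bd.sum {M : GD} {m : ℤ} {ι : Type} (s : Finset ι) {x : ι → M.V}
    (h : ∀ i ∈ s, Bd M m (x i)) : Bd M m (∑ i ∈ s, x i) :=
  Finset.sum_induction _ _ (fun _ _ => Bd.add) (Bd.zero M m) h

theorem Cy.map {M N : GD} (u : Hom M N) {m : ℤ} {x : M.V} (h : Cy M m x) : Cy N m (u.f x) :=
  ⟨u.deg _ _ h.1, by rw [← u.comm, h.2, map_zero]⟩

theorem qis_iff {M N : GD} (u : Hom M N) : Qis u ↔ ∀ m, (∀ x, Cy M m x → Bd N m (u.f x) → Bd M m x) ∧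
    ∀ y, Cy N m y → ∃ x, Cy M m x ∧ Bd N m (y - u.f x) :=
  forall_congr' fun m => and_congr ⟨fun h x hx => h x hx.1 hx.2, fun h x h1 h2 => h x ⟨h1, h2⟩⟩
    ⟨fun h y hy => (h y hy.1 hy.2).imp fun x hx => ⟨⟨hx.1, hx.2.1⟩, hx.2.2⟩,
      fun h y h1 h2 => (h y ⟨h1, h2⟩).imp fun x hx => ⟨hx.1.1, hx.1.2, hx.2⟩⟩

variable {X Y : CS}

theorem Bd.dl {k : ℕ} {m : ℤ} {x : (X.X k).V} (h : Bd (X.X k) m x) :
    Bd (X.X (k + 1)) m (X.dl k x) := by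
  obtain ⟨a, ha, rfl⟩ := h
  exact ⟨X.dl k a, X.dl_gr k _ _ ha, (X.dl_d k a).symm⟩

/-- The rows of the cohomology are exact in positive levels. -/
def RowEx (X : CS) : Prop := ∀ (k : ℕ) (m : ℤ) (x : (X.X (k + 1)).V), Cy (X.X (k + 1)) m x →
  Bd (X.X (k + 1 + 1)) m (X.dl (k + 1) x) → ∃ z, Cy (X.X k) m z ∧ Bd (X.X (k + 1)) m (x - X.dl k z)

/-- A cycle of level zero whose class is killed by the difference of the faces. -/
def ICy (X : CS) (m : ℤ) (x : (X.X 0).V) : Prop := Cy (X.X 0) m x ∧ Bd (X.X (0 + 1)) m (X.dl 0 x)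

theorem sg_sq (k : ℕ) : (-1 : ℂ) ^ k * (-1 : ℂ) ^ k = 1 := by rw [← mul_pow]; norm_num

theorem toth_step (h : RowEx X) {m : ℤ} {v : X.Tot.V} (hv : v ∈ X.Tot.gr (m + 1)) (hd : X.D v = 0)
    (k : ℕ) (p : (X.X k).V) (hp : p ∈ (X.X k).gr (m - k))
    (e : X.dl k ((X.X k).d p) = (-1 : ℂ) ^ k • X.dl k (v k)) :
    ∃ z q, Cy (X.X k) (m - k) z ∧ q ∈ (X.X (k + 1)).gr (m - (k + 1 : ℕ)) ∧
      (-1 : ℂ) ^ (k + 1) • (X.X (k + 1)).d q + X.dl k (p + z) = v (k + 1) := by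
  have h0 : ∀ j, (X.X (j + 1)).d (v (j + 1)) = (-1 : ℂ) ^ j • X.dl j (v j) := fun j => by
    have h1 : (-1 : ℂ) ^ (j + 1) • (X.X (j + 1)).d (v (j + 1)) + X.dl j (v j) = 0 :=
      congrFun hd (j + 1)
    rw [← neg_eq_of_add_eq_zero_right h1, smul_neg, smul_smul, pow_succ, ← mul_assoc, sg_sq]
    simp
  have h2 : v (k + 1) ∈ (X.X (k + 1)).gr (m - k) := by
    have := hv (k + 1)
    rwa [show m + 1 - ((k + 1 : ℕ) : ℤ) = m - k by push_cast; ring] at this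
  have h3 : v (k + 1 + 1) ∈ (X.X (k + 1 + 1)).gr (m - k - 1) := by
    have := hv (k + 1 + 1)
    rwa [show m + 1 - ((k + 1 + 1 : ℕ) : ℤ) = m - k - 1 by push_cast; ring] at this
  obtain ⟨z, hz, y, hy, ey⟩ := h k (m - k) (v (k + 1) - X.dl k p)
    ⟨sub_mem h2 (X.dl_gr k _ _ hp), by rw [map_sub, ← X.dl_d, e, h0, sub_self]⟩
    ⟨(-1 : ℂ) ^ (k + 1) • v (k + 1 + 1), Submodule.smul_mem _ _ h3, by
      rw [map_smul, h0, smul_smul, sg_sq, one_smul, map_sub, X.dl_dl, sub_zero]⟩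
  refine ⟨z, (-1 : ℂ) ^ (k + 1) • y, hz, Submodule.smul_mem _ _ ?_, ?_⟩
  · rwa [show m - ((k + 1 : ℕ) : ℤ) = m - k - 1 by push_cast; ring]
  · rw [map_smul, smul_smul, sg_sq, one_smul, ey, map_add]; abel

theorem toth_ext (h : RowEx X) {m : ℤ} {v : X.Tot.V} (hv : v ∈ X.Tot.gr (m + 1)) (hd : X.D v = 0)
    (w0 : (X.X 0).V) (h0 : w0 ∈ (X.X 0).gr m) (e0 : (X.X 0).d w0 = v 0) (q0 : (X.X (0 + 1)).V)
    (h1 : q0 ∈ (X.X (0 + 1)).gr (m - (0 + 1 : ℕ)))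
    (e1 : (-1 : ℂ) ^ (0 + 1) • (X.X (0 + 1)).d q0 + X.dl 0 w0 = v (0 + 1)) :
    ∃ w ∈ X.Tot.gr m, X.D w = v ∧ w 0 = w0 := by
  have key : ∀ (k : ℕ) (q : (X.X (k + 1)).V) (p : (X.X k).V),
      (-1 : ℂ) ^ (k + 1) • (X.X (k + 1)).d q + X.dl k p = v (k + 1) →
      X.dl (k + 1) ((X.X (k + 1)).d q) = (-1 : ℂ) ^ (k + 1) • X.dl (k + 1) (v (k + 1)) :=
    fun k q p e => by
      rw [← e, map_add, X.dl_dl, add_zero, map_smul, smul_smul, sg_sq, one_smul]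
  choose z q hz hq e using toth_step h hv hd
  let g : ∀ k : ℕ, {p : (X.X (k + 1)).V // p ∈ (X.X (k + 1)).gr (m - (k + 1 : ℕ)) ∧
      X.dl (k + 1) ((X.X (k + 1)).d p) = (-1 : ℂ) ^ (k + 1) • X.dl (k + 1) (v (k + 1))} :=
    fun k => Nat.rec ⟨q0, h1, key 0 q0 w0 e1⟩
      (fun k p => ⟨q (k + 1) p.1 p.2.1 p.2.2, hq _ _ _ _, key (k + 1) _ _ (e _ _ _ _)⟩) k
  let w : ∀ k, (X.X k).V := fun k => match k with
    | 0 => w0
    | (k + 1) => (g k).1 + z (k + 1) (g k).1 (g k).2.1 (g k).2.2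
  refine ⟨w, fun k => ?_, funext fun k => ?_, rfl⟩
  · match k with
    | 0 => simpa using h0
    | (k + 1) => exact add_mem (g k).2.1 (hz _ _ _ _).1
  · match k with
    | 0 => exact e0
    | 1 =>
      change (-1 : ℂ) ^ (0 + 1) • (X.X (0 + 1)).d (q0 + _) + X.dl 0 w0 = v (0 + 1)
      rw [map_add, (hz _ _ _ _).2, add_zero, e1]
    | (k + 2) =>
      change (-1 : ℂ) ^ (k + 1 + 1) • (X.X (k + 1 + 1)).d ((g (k + 1)).1 + _) +
        X.dl (k + 1) ((g k).1 + _) = v (k + 1 + 1)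
      rw [map_add, (hz _ _ _ _).2, add_zero]
      exact e (k + 1) (g k).1 (g k).2.1 (g k).2.2

/-- The component of level zero of a cycle of the total. -/
theorem icy_of {m : ℤ} {v : X.Tot.V} (hv : Cy X.Tot m v) : ICy X m (v 0) := by
  refine ⟨⟨by simpa using hv.1 0, congrFun hv.2 0⟩, v (0 + 1), by simpa using hv.1 (0 + 1), ?_⟩
  have h1 : (-1 : ℂ) ^ (0 + 1) • (X.X (0 + 1)).d (v (0 + 1)) + X.dl 0 (v 0) = 0 :=
    congrFun hv.2 (0 + 1)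
  rw [← neg_eq_of_add_eq_zero_right h1]
  simp

theorem bd_of {m : ℤ} {v : X.Tot.V} (hv : Bd X.Tot m v) : Bd (X.X 0) m (v 0) :=
  hv.map (CS.fromZero (Hom.id _))

theorem toth_surj (h : RowEx X) {m : ℤ} {x : (X.X 0).V} (hx : ICy X m x) :
    ∃ v, Cy X.Tot m v ∧ v 0 = x := by
  obtain ⟨y, hy, e⟩ := hx.2
  obtain ⟨w, h1, h2, h3⟩ := toth_ext h (zero_mem _) (map_zero _) x hx.1.1 hx.1.2 y
    (by simpa using hy) (by rw [e]; simp; rfl)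
  exact ⟨w, ⟨h1, h2⟩, h3⟩

theorem toth_inj (h : RowEx X) {m : ℤ} {v : X.Tot.V} (hv : Cy X.Tot m v)
    (h0 : Bd (X.X 0) m (v 0)) : Bd X.Tot m v := by
  obtain ⟨p, hp, e⟩ := h0
  have hv' : v ∈ X.Tot.gr (m - 1 + 1) := by rw [sub_add_cancel]; exact hv.1
  obtain ⟨z, q, hz, hq, e'⟩ := toth_step h hv' hv.2 0 p (by simpa using hp) (by rw [e]; simp)
  obtain ⟨w, h1, h2, -⟩ := toth_ext h hv' hv.2 (p + z) (add_mem hp (by simpa using hz.1))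
    (by rw [map_add, hz.2, add_zero, e]) q hq e'
  exact ⟨w, h1, h2⟩

/-- A map from the total is a quasi-isomorphism if and only if it is one on the invariant
classes; the relation `R m x y` says that `y` represents the image of the class of `x`. -/
theorem qis_tot_iff (hX : RowEx X) (hY : RowEx Y) (u : Hom X.Tot Y.Tot)
    (u0 : Hom (X.X 0) (Y.X 0)) (e : ∀ v, (u.f v : ∀ k, (Y.X k).V) 0 = u0.f (v 0)) :
    Qis u ↔ ∀ m, (∀ x, ICy X m x → Bd (Y.X 0) m (u0.f x) → Bd (X.X 0) m x) ∧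
      ∀ y, ICy Y m y → ∃ x, ICy X m x ∧ Bd (Y.X 0) m (y - u0.f x) := by
  rw [qis_iff]
  refine forall_congr' fun m => and_congr ⟨fun H x hx hb => ?_, fun H v hv hb => ?_⟩
    ⟨fun H y hy => ?_, fun H w hw => ?_⟩
  · obtain ⟨v, hv, rfl⟩ := toth_surj hX hx
    exact bd_of (H v hv (toth_inj hY (hv.map u) (e v ▸ hb)))
  · exact toth_inj hX hv (H _ (icy_of hv) (e v ▸ bd_of hb))
  · obtain ⟨w, hw, rfl⟩ := toth_surj hY hy
    obtain ⟨v, hv, hb⟩ := H w hw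
    exact ⟨v 0, icy_of hv, e v ▸ bd_of hb⟩
  · obtain ⟨x, hx, hb⟩ := H _ (icy_of hw)
    obtain ⟨v, hv, rfl⟩ := toth_surj hX hx
    rw [← e] at hb
    refine ⟨v, hv, toth_inj hY ⟨sub_mem hw.1 (hv.map u).1, ?_⟩ hb⟩
    rw [map_sub, hw.2, (hv.map u).2, sub_self]

/-- A map to the total. -/
theorem qis_to_tot_iff (hY : RowEx Y) {M : GD} (u : Hom M Y.Tot) :
    Qis u ↔ ∀ m, (∀ x, Cy M m x → Bd (Y.X 0) m ((u.f x : ∀ k, (Y.X k).V) 0) → Bd M m x) ∧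
      ∀ y, ICy Y m y → ∃ x, Cy M m x ∧ Bd (Y.X 0) m (y - (u.f x : ∀ k, (Y.X k).V) 0) := by
  rw [qis_iff]
  refine forall_congr' fun m => and_congr ⟨fun H x hx hb => ?_, fun H v hv hb => ?_⟩
    ⟨fun H y hy => ?_, fun H w hw => ?_⟩
  · exact H x hx (toth_inj hY (hx.map u) hb)
  · exact H v hv (bd_of hb)
  · obtain ⟨w, hw, rfl⟩ := toth_surj hY hy
    obtain ⟨v, hv, hb⟩ := H w hw
    exact ⟨v, hv, bd_of hb⟩
  · obtain ⟨v, hv, hb⟩ := H _ (icy_of hw)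
    refine ⟨v, hv, toth_inj hY ⟨sub_mem hw.1 (hv.map u).1, ?_⟩ hb⟩
    rw [map_sub, hw.2, (hv.map u).2, sub_self]

/-- Exactness of the rows is invariant under levelwise quasi-isomorphisms. -/
theorem rowEx_iff (u : CS.Mor X Y) (hu : ∀ k, Qis (u.f k)) : RowEx X ↔ RowEx Y := by
  have hq := fun k => (qis_iff _).1 (hu k)
  have hc : ∀ k m x, Cy (X.X k) m x → Cy (X.X (k + 1)) m (X.dl k x) := fun k m x hx =>
    ⟨X.dl_gr k _ _ hx.1, by rw [← X.dl_d, hx.2, map_zero]⟩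
  constructor
  · intro H k m y hy hb
    obtain ⟨x, hx, e⟩ := (hq (k + 1) m).2 y hy
    obtain ⟨z, hz, e'⟩ := H k m x hx ((hq (k + 1 + 1) m).1 _ (hc _ _ _ hx) (by
      have := hb.sub e.dl
      rwa [map_sub, sub_sub_cancel, ← u.face.dl] at this))
    refine ⟨_, hz.map (u.f k), ?_⟩
    have := e.add (e'.map (u.f (k + 1)))
    rwa [map_sub, u.face.dl, sub_add_sub_cancel] at this
  · intro H k m x hx hb
    obtain ⟨w, hw, e⟩ := H k m _ (hx.map (u.f (k + 1))) (u.face.dl _ _ ▸ hb.map (u.f (k + 1 + 1)))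
    obtain ⟨z, hz, e'⟩ := (hq k m).2 w hw
    refine ⟨z, hz, (hq (k + 1) m).1 _ ⟨sub_mem hx.1 (hc _ _ _ hz).1, by
      rw [map_sub, hx.2, (hc _ _ _ hz).2, sub_self]⟩ ?_⟩
    have := e.add e'.dl
    rwa [map_sub, sub_add_sub_cancel, ← u.face.dl, ← map_sub] at this

end

end Vale.Agent.P286EC
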