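import Vale.Agent.P286EC.Gen
import Vale.Agent.P286EC.Toth
import Vale.Agent.P286EX9.Ctr
import Vale.Agent.P286EX6.Cm
import Vale.Agent.P286EG.Cart

/-!
# Families of complexes of modules, the twist by a representation
-/

set_option linter.all false

namespace Vale.Agent.P286EX

open CategoryTheory Matrix TensorProduct Vale.Agent.P286 Vale.Agent.P286.St Vale.Agent.P286.H847
  Vale.Agent.P286E Vale.Agent.P286EC Vale.Agent.P286EG
open Vale.Agent.P286.H761 (GF CS CO)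

noncomputable section

/-- A family of complexes of modules. -/
structure AF (T : TSite) : Type 1 where
  ag : ∀ X : T.C, AG (T.R X)
  const : ∀ (X : T.C) (c : ℂ) x, (ag X).fn (algebraMap ℂ (T.R X) c) x = c • x
  t : ∀ {X Y : T.C}, (X ⟶ Y) → GD.Hom (ag X).G (ag Y).G
  sl : ∀ {X Y : T.C} (φ : X ⟶ Y), Sl (T.f φ).r (ag X) (ag Y) (t φ)
  t_id : ∀ (X : T.C) x, (t (𝟙 X)).f x = x
  t_comp : ∀ {X Y Z : T.C} (φ : X ⟶ Y) (ψ : Y ⟶ Z) x, (t (φ ≫ ψ)).f x = (t ψ).f ((t φ).f x)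

variable {T : TSite}

/-- The underlying functor. -/
abbrev AF.gf (F : AF T) : GF T.C := ⟨fun X => (F.ag X).G, F.t, F.t_id, F.t_comp⟩

/-- The family of a family of complexes of `D`-modules. -/
abbrev AF.ofG (F : GTD T) : AF T :=
  ⟨P286EG.ag F, fun X => (F.dmod X).const, F.tr, sl_tr F, F.id, fun φ ψ => F.comp _ _ _ φ ψ⟩

/-- The complex of modules of a complex of `D`-modules. -/
abbrev agM {A : Type} [CommRing A] [Algebra ℂ A] (M : H697.DGM A) : AG A :=
  ⟨M.M, (Algebra.lsmul ℂ ℂ M.M.V : A →ₐ[ℂ] _).toRingHom, fun a m x => M.gr_smul m a x, M.d_smul⟩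

theorem agM_fn {A : Type} [CommRing A] [Algebra ℂ A] (M : H697.DGM A) (a : A) (x : M.M.V) :
    (agM M).fn a x = a • x := rfl

/-- The family of a gauge family. -/
abbrev AF.ofH {S : GS T} (F : HG S) : AF T :=
  ⟨fun X => agM (F.K X), fun X c x => algebraMap_smul (T.R X) c x, F.t, F.t_smul, F.t_id, F.t_comp⟩

/-- A morphism of families. -/
structure AF.Hom (F F' : AF T) where
  u : ∀ X, GD.Hom (F.ag X).G (F'.ag X).G
  li : ∀ X, Li (F.ag X) (F'.ag X) (u X)
  tr : ∀ {X Y : T.C} (φ : X ⟶ Y) x, (u Y).f ((F.t φ).f x) = (F'.t φ).f ((u X).f x)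

/-- The natural transformation. -/
abbrev AF.Hom.nat {F F' : AF T} (a : AF.Hom F F') : GF.Nat' F.gf F'.gf := ⟨a.u, a.tr⟩

variable {I : Type} [SmallCategory I] {D : CD I} {G : Grp} {s : ℂ} {K : GK G}
  {A B : Type} [CommRing A] [Algebra ℂ A] [CommRing B] [Algebra ℂ B]

/-- The inverse matrix of the representation at a point. -/
def Rep.rv (U : Rep K) {h : Matrix (Fin G.N) (Fin G.N) A} (hh : G.Pt h) :
    Matrix (Fin U.n) (Fin U.n) A := U.ri.map (K.ev h hh)

/-- The matrix of the representation at a point. -/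
def Rep.rw (U : Rep K) {h : Matrix (Fin G.N) (Fin G.N) A} (hh : G.Pt h) :
    Matrix (Fin U.n) (Fin U.n) A := U.r.map (K.ev h hh)

variable (U : Rep K) {h k : Matrix (Fin G.N) (Fin G.N) A}

theorem Rep.rw_rv (hh : G.Pt h) : U.rw hh * U.rv hh = 1 := by
  rw [Rep.rw, Rep.rv, ← map_mul', U.r_mul_ri, map_one']

theorem Rep.rv_rw (hh : G.Pt h) : U.rv hh * U.rw hh = 1 := by
  rw [Rep.rw, Rep.rv, ← map_mul', U.ri_mul_r, map_one']

theorem Rep.rw_mul (hh : G.Pt h) (hk : G.Pt k) : U.rw (hh.mul hk) = U.rw hh * U.rw hk :=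
  U.r_mul hh hk

theorem Rep.rv_mul (hh : G.Pt h) (hk : G.Pt k) : U.rv (hh.mul hk) = U.rv hk * U.rv hh := by
  rw [← Matrix.mul_one (U.rv (hh.mul hk)), ← U.rw_rv hh, ← Matrix.mul_one (U.rw hh), ← U.rw_rv hk,
    ← Matrix.mul_assoc (U.rw hh), ← U.rw_mul, Matrix.mul_assoc, ← Matrix.mul_assoc, U.rv_rw,
    Matrix.one_mul]

theorem Rep.rv_map (hh : G.Pt h) (f : A →ₐ[ℂ] B) : (U.rv hh).map f = U.rv (hh.map f) :=
  Matrix.ext fun i j => AlgHom.congr_fun (K.comp_ev hh f) (U.ri i j)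

theorem Rep.rw_map (hh : G.Pt h) (f : A →ₐ[ℂ] B) : (U.rw hh).map f = U.rw (hh.map f) :=
  Matrix.ext fun i j => AlgHom.congr_fun (K.comp_ev hh f) (U.r i j)

theorem Rep.rv_congr (hh : G.Pt h) (hk : G.Pt k) (e : h = k) : U.rv hh = U.rv hk := by
  subst e; rfl

theorem Rep.rw_congr (hh : G.Pt h) (hk : G.Pt k) (e : h = k) : U.rw hh = U.rw hk := by
  subst e; rfl

theorem Rep.rw_one (hh : G.Pt h) (e : h = 1) : U.rw hh = 1 := by
  have e1 := U.rw_map (Grp.Pt.one (A := ℂ) G) (Algebra.ofId ℂ A)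
  rw [show U.rw (Grp.Pt.one (A := ℂ) G) = 1 from U.r_one, map_one'] at e1
  exact (U.rw_congr _ _ (e.trans (map_one' _).symm)).trans e1.symm

theorem Rep.rv_one (hh : G.Pt h) (e : h = 1) : U.rv hh = 1 := by
  rw [← U.rw_rv hh, U.rw_one hh e, Matrix.one_mul]

theorem Rep.rv_cg (X : QO D) : U.rv (cg_pt K X) = U.ri.map (cR K X.A.R) :=
  (U.rv_map K.pt (cR K X.A.R)).symm.trans (by rw [Rep.rv, K.ev_self]; rfl)

section Tw

omit [Algebra ℂ A] [Algebra ℂ B]

/-- The map `η ↦ (∑ m k j • t (η k))_j`. -/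
def twH {M : AG A} {N : AG B} (t : GD.Hom M.G N.G) {n : ℕ} (m : Matrix (Fin n) (Fin n) B) :
    GD.Hom (AG.pi fun _ : Fin n => M).G (AG.pi fun _ : Fin n => N).G where
  f := LinearMap.pi fun j => ∑ k, N.fn (m k j) ∘ₗ t.f ∘ₗ LinearMap.proj k
  comm x := funext fun j => by
    change (∑ k, N.fn (m k j) ∘ₗ t.f ∘ₗ LinearMap.proj k) (fun l => M.G.d (x l)) =
      N.G.d ((∑ k, N.fn (m k j) ∘ₗ t.f ∘ₗ LinearMap.proj k) x)
    simp only [LinearMap.sum_apply, LinearMap.comp_apply, LinearMap.proj_apply, map_sum, N.d,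
      t.comm]
  deg i x hx j _ := by
    change (∑ k, N.fn (m k j) ∘ₗ t.f ∘ₗ LinearMap.proj k) x ∈ N.G.gr i
    rw [LinearMap.sum_apply]
    exact Submodule.sum_mem _ fun k _ => N.gr _ _ _ (t.deg _ _ (hx k trivial))

theorem twH_apply {M : AG A} {N : AG B} (t : GD.Hom M.G N.G) {n : ℕ}
    (m : Matrix (Fin n) (Fin n) B) (x : Fin n → M.G.V) (j : Fin n) :
    (twH t m).f x j = ∑ k, N.fn (m k j) (t.f (x k)) :=
  LinearMap.sum_apply _ _ _

theorem fn_fn (M : AG A) (a b : A) (x : M.G.V) : M.fn a (M.fn b x) = M.fn (a * b) x := by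
  rw [map_mul]; rfl

theorem twH_one {M : AG A} {N : AG B} (t : GD.Hom M.G N.G) {n : ℕ} (x : Fin n → M.G.V)
    (j : Fin n) : (twH t (1 : Matrix (Fin n) (Fin n) B)).f x j = t.f (x j) := by
  rw [twH_apply, Finset.sum_eq_single j, Matrix.one_apply_eq, map_one, Module.End.one_apply]
  · intro k _ hk
    rw [Matrix.one_apply_ne hk, map_zero, LinearMap.zero_apply]
  · simp

theorem twH_sl {M : AG A} {N : AG B} {t : GD.Hom M.G N.G} {f : A →+* B} (h : Sl f M N t) {n : ℕ}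
    (m : Matrix (Fin n) (Fin n) B) :
    Sl f (AG.pi fun _ : Fin n => M) (AG.pi fun _ : Fin n => N) (twH t m) := fun a x =>
  funext fun j => by
    change (twH t m).f (fun l => M.fn a (x l)) j = N.fn (f a) ((twH t m).f x j)
    rw [twH_apply, twH_apply, map_sum]
    exact Finset.sum_congr rfl fun k _ => by rw [h a, fn_fn, fn_fn, mul_comm]

theorem twH_comp {C : Type} [CommRing C] {M : AG A} {N : AG B} {R : AG C} (t : GD.Hom M.G N.G)
    {t' : GD.Hom N.G R.G} {g : B →+* C} (h : Sl g N R t') (t'' : GD.Hom M.G R.G)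
    (e : ∀ x, t''.f x = t'.f (t.f x)) {n : ℕ} (m : Matrix (Fin n) (Fin n) B)
    (m' : Matrix (Fin n) (Fin n) C) (x : Fin n → M.G.V) :
    (twH t'' (m.map g * m')).f x = (twH t' m').f ((twH t m).f x) := funext fun j => by
  rw [twH_apply, twH_apply]
  simp only [map_sum, e, Matrix.mul_apply, LinearMap.sum_apply]
  rw [Finset.sum_comm]
  refine Finset.sum_congr rfl fun k _ => ?_
  rw [twH_apply, map_sum, map_sum]
  refine Finset.sum_congr rfl fun l _ => ?_
  rw [h, fn_fn, mul_comm]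
  rfl

end Tw

/-- The inverse matrix of the representation at the gauge transformation of an arrow. -/
def Rep.ra {X Y : (QS D G s).C} (u : X ⟶ Y) : Matrix (Fin U.n) (Fin U.n) ((QS D G s).R Y) :=
  (U.rv (A := (QO.A Y).R) (QM.pt u) :)

theorem Rep.ra_one {X Y : (QS D G s).C} (u : X ⟶ Y) (e : QM.h u = 1) : U.ra u = 1 :=
  U.rv_one _ e

theorem Rep.ra_comp {X Y Z : (QS D G s).C} (u : X ⟶ Y) (v : Y ⟶ Z) :
    U.ra (u ≫ v) = (U.ra u).map ((QS D G s).f v).r * U.ra v :=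
  (U.rv_mul (QM.pt v) ((QM.pt u).map (QM.φ v))).trans
    (congrArg (· * U.rv (QM.pt v)) (U.rv_map (QM.pt u) (QM.φ v)).symm)

/-- The family `Hom(U, F)`. -/
abbrev AF.tw (F : AF (QS D G s)) (U : Rep K) : AF (QS D G s) where
  ag X := AG.pi fun _ : Fin U.n => F.ag X
  const X c x := funext fun j => F.const X c (x j)
  t u := twH (F.t u) (U.ra u)
  sl u := twH_sl (F.sl u) _
  t_id X x := funext fun j => by
    rw [U.ra_one _ rfl, twH_one, F.t_id]
  t_comp u v x := by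
    rw [U.ra_comp]
    exact twH_comp _ (F.sl v) _ (F.t_comp u v) _ _ x

theorem AF.tw_t (F : AF (QS D G s)) {X Y : (QS D G s).C} (u : X ⟶ Y)
    (x : Fin U.n → (F.ag X).G.V) (j : Fin U.n) : ((F.tw U).t u).f x j =
      ∑ k, (F.ag Y).fn (U.ra u k j) ((F.t u).f (x k)) := twH_apply _ _ x j

theorem Rep.ra_apply {X Y : QO D} (u : Ar G s X Y) (k j : Fin U.n) :
    U.ra u k j = K.ev _ (QM.pt u) (U.ri k j) := rfl

theorem AF.tw_t_one (F : AF (QS D G s)) {X Y : (QS D G s).C} (u : X ⟶ Y) (e : QM.h u = 1)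
    (x : Fin U.n → (F.ag X).G.V) (j : Fin U.n) : ((F.tw U).t u).f x j = (F.t u).f (x j) := by
  change (twH (F.t u) (U.ra u)).f x j = _
  rw [U.ra_one _ e, twH_one]

/-- Functoriality. -/
def AF.Hom.tw {F F' : AF (QS D G s)} (a : AF.Hom F F') (U : Rep K) :
    AF.Hom (F.tw U) (F'.tw U) where
  u X := piMap fun _ => a.u X
  li X c x := funext fun j => a.li X c (x j)
  tr {X Y} φ x := funext fun j => by
    change (a.u Y).f (((F.tw U).t φ).f x j) = ((F'.tw U).t φ).f (fun l => (a.u X).f (x l)) j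
    rw [AF.tw_t, AF.tw_t, map_sum]
    exact Finset.sum_congr rfl fun k _ => by rw [a.li Y, a.tr]; rfl

variable (K) (xd : XD D)

/-- The values on the powers of the universal point. -/
abbrev AF.cs (F : AF (QS D G s)) (K : GK G) (xd : XD D) (i : I) : CS := F.gf.cs (ptS K xd s i).co

variable {K}

/-- The total of the twisted cobar object. -/
abbrev AF.tot (F : AF (QS D G s)) (U : Rep K) (xd : XD D) (i : I) : GD := ((F.tw U).cs K xd i).Tot

variable (K)

/-- The family is cartesian along the first inclusions. -/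
def FCI (F : AF (QS D G s)) : Prop :=
  ∀ X : QO D, DB ((QS D G s).f (inl K s X)).r (F.ag X) (F.ag (cop K X)) (F.t (inl K s X))

variable {K}

theorem FCI.ofG {F : GTD (QS D G s)} (h : GC F) : FCI K (AF.ofG F) := fun X => h.db (inl K s X)

theorem FCI.tw {F : AF (QS D G s)} (h : FCI K F) (U : Rep K) : FCI K (F.tw U) := fun X =>
  (DB.pi fun _ : Fin U.n => h X).congr (fun _ => rfl) fun x =>
    funext fun j => (F.tw_t_one U (inl K s X) rfl x j).symm

theorem dl_zero (F : AF (QS D G s)) (i : I) (x : (F.ag (Zo xd i)).G.V) : (F.cs K xd i).dl 0 x =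
    (F.t (inr K xd s (Zo xd i))).f x - (F.t (inl K s (Zo xd i))).f x := by
  refine ((F.cs K xd i).dl_apply 0 x).trans ?_
  rw [Finset.sum_range_succ, Finset.sum_range_one, pow_zero, one_smul, pow_one,
    neg_one_smul, ← sub_eq_add_neg]
  rfl

theorem bd_pi {ι : Type} {M : ι → GD} {m : ℤ} {x : ∀ l, (M l).V} :
    Bd (gpi M) m x ↔ ∀ l, Bd (M l) m (x l) := by
  refine ⟨fun ⟨y, hy, e⟩ l => ⟨y l, hy l trivial, congrFun e l⟩, fun h => ?_⟩
  choose y hy e using h
  exact ⟨y, fun l _ => hy l, funext e⟩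

theorem cy_pi {ι : Type} {M : ι → GD} {m : ℤ} {x : ∀ l, (M l).V} :
    Cy (gpi M) m x ↔ ∀ l, Cy (M l) m (x l) :=
  ⟨fun h l => ⟨h.1 l trivial, congrFun h.2 l⟩,
    fun h => ⟨fun l _ => (h l).1, funext fun l => (h l).2⟩⟩

/-- The invariant classes. -/
theorem icy_iff (F : AF (QS D G s)) (i : I) (m : ℤ) (x : Fin U.n → (F.ag (Zo xd i)).G.V) :
    ICy ((F.tw U).cs K xd i) m x ↔ (∀ j, Cy (F.ag (Zo xd i)).G m (x j)) ∧
      ∀ j, Bd (F.ag (cop K (Zo xd i))).G m
        (∑ k, (F.ag (cop K (Zo xd i))).fn (cR K _ (U.ri k j))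
          ((F.t (inr K xd s (Zo xd i))).f (x k)) - (F.t (inl K s (Zo xd i))).f (x j)) := by
  refine and_congr cy_pi ?_
  refine (iff_of_eq (congrArg (Bd _ m) (dl_zero xd (F.tw U) i x))).trans ?_
  refine bd_pi.trans (forall_congr' fun j => ?_)
  have e1 := F.tw_t_one U (inl K s (Zo xd i)) rfl x j
  have e2 : ((F.tw U).t (inr K xd s (Zo xd i))).f x j = _ :=
    (congrArg (fun m => (twH (F.t (inr K xd s (Zo xd i))) m).f x j) (U.rv_cg (Zo xd i))).trans
      (twH_apply _ _ x j)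
  exact iff_of_eq (congrArg (Bd _ m) (congrArg₂ (· - ·) e2 e1))

end

end Vale.Agent.P286EX
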