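import Vale.Agent.P286EC.Gen
import Vale.Agent.P286EB.Av

/-!
# The average of forms on the group
-/

set_option linter.all false

namespace Vale.Agent.P286EX

open Matrix TensorProduct Vale.Agent.P286 Vale.Agent.P286.H710 Vale.Agent.P286E Vale.Agent.P286EC

noncomputable section

theorem map_thS {R R' : Type} [Semiring R] [Semiring R'] (f : R →+* R') (θ : Fin 3 → R)
    (S : Finset (Fin 3)) : f (thS θ S) = thS (fun a => f (θ a)) S := by
  simp only [thS, map_mul, apply_ite f, map_one]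

theorem thS_mem {R σ : Type} [Monoid R] [SetLike σ R] [SubmonoidClass σ R] (P : σ)
    {θ : Fin 3 → R} (h : ∀ a, θ a ∈ P) (S : Finset (Fin 3)) : thS θ S ∈ P := by
  have e : ∀ a, (if a ∈ S then θ a else 1) ∈ P := fun a => by
    split_ifs
    exacts [h a, one_mem _]
  exact mul_mem (mul_mem (e 2) (e 1)) (e 0)

theorem thS_single {R : Type} [Monoid R] (θ : Fin 3 → R) (a : Fin 3) : thS θ {a} = θ a := by
  fin_cases a <;> simp [thS]

theorem sort_three (S : Finset (Fin 3)) :
    S.sort (· ≤ ·) = ([0, 1, 2] : List (Fin 3)).filter (· ∈ S) :=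
  List.Perm.eq_of_pairwise (le := (· ≤ ·)) (fun _ _ _ _ => le_antisymm) (S.pairwise_sort _)
    (List.Pairwise.filter _ (by decide))
    ((List.perm_ext_iff_of_nodup (S.sort_nodup _) (List.Nodup.filter _ (by decide))).2 fun a => by
      fin_cases a <;> simp)

theorem ext_basis_eq {R M : Type} [CommRing R] [AddCommGroup M] [Module R M]
    (b : Module.Basis (Fin 3) R M) (S : Finset (Fin 3)) :
    (b.reindex Fin.revPerm).ExteriorAlgebra (S.map Fin.revPerm.toEmbedding) =
      thS (fun a => ExteriorAlgebra.ι R (b a)) S := by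
  have e : ∀ (b : Module.Basis (Fin 3) R M) (T : Finset (Fin 3)), b.ExteriorAlgebra T =
      ((T.sort (· ≤ ·)).map fun a => ExteriorAlgebra.ι R (b a)).prod := fun b T => by
    rw [ExteriorAlgebra.basis_apply_ofCard b rfl, ← T.listMap_orderEmbOfFin_finRange rfl,
      List.map_map, ← List.ofFn_eq_map]
    rfl
  have h0 : Fin.rev (0 : Fin 3) = 2 := rfl
  have h1 : Fin.rev (1 : Fin 3) = 1 := rfl
  have h2 : Fin.rev (2 : Fin 3) = 0 := rfl
  rw [e, sort_three, thS]
  by_cases c0 : 0 ∈ S <;> by_cases c1 : 1 ∈ S <;> by_cases c2 : 2 ∈ S <;>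
    simp [List.filter_cons, c0, c1, c2, h0, h1, h2, mul_assoc]

variable {G : Grp}

namespace GK

variable (K : GK G)

/-- The Maurer-Cartan forms of the group. -/
abbrev tO (a : Fin 3) : Om ℂ K.O.R := io1 (thm G K.g a)

/-- The invariant frame of the forms, with the reversed indices. -/
def fe : Module.Basis (Finset (Fin 3)) K.O.R (Om ℂ K.O.R) :=
  (K.basis.reindex Fin.revPerm).ExteriorAlgebra

/-- The invariant frame of the forms. -/
def fb : Module.Basis (Finset (Fin 3)) K.O.R (Om ℂ K.O.R) :=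
  K.fe.reindex Fin.revPerm.finsetCongr.symm

theorem fb_fe (S : Finset (Fin 3)) : K.fb S = K.fe (S.map Fin.revPerm.toEmbedding) :=
  K.fe.reindex_apply _ S

theorem fb_eq (S : Finset (Fin 3)) : K.fb S = thS K.tO S := by
  rw [fb_fe, fe, ext_basis_eq]; simp only [K.basis_apply]

theorem fb_empty : K.fb ∅ = 1 := by rw [fb_eq, thS_empty]

theorem fb_single (a : Fin 3) : K.fb {a} = K.tO a := by rw [fb_eq, thS_single]

theorem coord_gr {p : ℕ} {w : Om ℂ K.O.R} (hw : w ∈ Om.gr ℂ K.O.R p) {S : Finset (Fin 3)}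
    (hS : S.card ≠ p) : K.fb.coord S w = 0 := by
  have h := congrArg (fun x : Om.gr ℂ K.O.R p => K.fe.repr (x : Om ℂ K.O.R)
    (S.map Fin.revPerm.toEmbedding))
    (((K.basis.reindex Fin.revPerm).exteriorPower p).sum_repr ⟨w, hw⟩)
  refine (K.fe.repr_reindex_apply w _ S).trans (h.symm.trans ?_)
  simp only [Submodule.coe_sum, Submodule.coe_smul, map_sum, map_smul, Finsupp.finset_sum_apply,
    Finsupp.smul_apply]
  refine Finset.sum_eq_zero fun T _ => ?_
  rw [← ExteriorAlgebra.basis_eq_coe_basis, ← fe, Module.Basis.repr_self,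
    Finsupp.single_eq_of_ne, smul_zero]
  intro e
  exact hS ((Finset.card_map _).symm.trans (e ▸ T.2))

/-- The invariant forms. -/
def Lm : Subalgebra ℂ (Om ℂ K.O.R) := Algebra.adjoin ℂ (Set.range K.tO)

theorem tO_mem (a : Fin 3) : K.tO a ∈ K.Lm := Algebra.subset_adjoin ⟨a, rfl⟩

theorem fb_mem (S : Finset (Fin 3)) : K.fb S ∈ K.Lm := K.fb_eq S ▸ thS_mem K.Lm K.tO_mem S

theorem fe_mul (S T : Finset (Fin 3)) :
    K.fe S * K.fe T ∈ Submodule.span ℂ (Set.range K.fe) := by
  let s : Set.powersetCard (Fin 3) S.card := ⟨S, rfl⟩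
  let t : Set.powersetCard (Fin 3) T.card := ⟨T, rfl⟩
  by_cases h : Disjoint s.val t.val
  · have e := ExteriorAlgebra.basis_mul_of_disjoint (K.basis.reindex Fin.revPerm) s t h
    refine (congrArg (· ∈ _) e).mpr ?_
    rw [Units.smul_def]
    exact zsmul_mem (Submodule.subset_span (Set.mem_range_self (f := K.fe) _)) _
  · exact (congrArg (· ∈ _) (ExteriorAlgebra.basis_mul_of_not_disjoint
      (K.basis.reindex Fin.revPerm) s t h)).mpr (zero_mem _)

theorem fb_mul (S T : Finset (Fin 3)) :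
    K.fb S * K.fb T ∈ Submodule.span ℂ (Set.range K.fb) := by
  rw [fb_fe, fb_fe, fb, Module.Basis.range_reindex]
  exact K.fe_mul _ _

theorem mem_span {η : Om ℂ K.O.R} (h : η ∈ K.Lm) : η ∈ Submodule.span ℂ (Set.range K.fb) := by
  induction h using Algebra.adjoin_induction with
  | mem _ hx => obtain ⟨a, rfl⟩ := hx; exact Submodule.subset_span ⟨_, K.fb_single a⟩
  | algebraMap c =>
    rw [Algebra.algebraMap_eq_smul_one]
    exact Submodule.smul_mem _ _ (Submodule.subset_span ⟨_, K.fb_empty⟩)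
  | add x y _ _ hx hy => exact add_mem hx hy
  | mul x y _ _ hx hy =>
    have h := Submodule.mul_mem_mul hx hy
    rw [Submodule.span_mul_span] at h
    refine Submodule.span_le.2 ?_ h
    rintro _ ⟨_, ⟨S, rfl⟩, _, ⟨T, rfl⟩, rfl⟩
    exact K.fb_mul S T

theorem sg_mem {η : Om ℂ K.O.R} (h : η ∈ K.Lm) : Om.sg η ∈ K.Lm := by
  induction h using Algebra.adjoin_induction with
  | mem _ hx => obtain ⟨a, rfl⟩ := hx; rw [Om.sg_ι]; exact neg_mem (K.tO_mem a)
  | algebraMap c =>
    rw [Algebra.algebraMap_eq_smul_one, Om.sg_csmul, map_one]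
    exact K.Lm.smul_mem (one_mem _) c
  | add x y _ _ hx hy => rw [map_add]; exact add_mem hx hy
  | mul x y _ _ hx hy => rw [map_mul]; exact mul_mem hx hy

theorem d_mem {η : Om ℂ K.O.R} (h : η ∈ K.Lm) : Om.d η ∈ K.Lm := by
  induction h using Algebra.adjoin_induction with
  | mem _ hx =>
    obtain ⟨a, rfl⟩ := hx
    rw [K.mc K.pt]
    exact sum_mem fun b _ => sum_mem fun c _ =>
      K.Lm.smul_mem (mul_mem (K.tO_mem b) (K.tO_mem c)) _
  | algebraMap c =>
    rw [IsScalarTower.algebraMap_apply ℂ K.O.R, Om.d_algebraMap, Om.dd_const]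
    exact zero_mem _
  | add x y _ _ hx hy => rw [Om.d_add]; exact add_mem hx hy
  | mul x y hx' hy' hx hy =>
    rw [Om.d_mul]; exact add_mem (mul_mem (K.sg_mem hx') hy) (mul_mem hx hy')

theorem om_ind {P : Om ℂ K.O.R → Prop} (w : Om ℂ K.O.R) (h0 : P 0)
    (h1 : ∀ (f : K.O.R) S, P (f • K.fb S)) (h2 : ∀ x y, P x → P y → P (x + y)) : P w :=
  K.fb.sum_repr w ▸ Finset.sum_induction _ P h2 h0 fun _ _ => h1 _ _

/-- The integral of the coefficient of a form. -/
def cO (S : Finset (Fin 3)) : Om ℂ K.O.R →ₗ[ℂ] ℂ :=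
  K.haar ∘ₗ (K.fb.coord S).restrictScalars ℂ

theorem cO_fb (S T : Finset (Fin 3)) (f : K.O.R) :
    K.cO S (f • K.fb T) = if S = T then K.haar f else 0 := by
  change K.haar (K.fb.coord S (f • K.fb T)) = _
  rw [map_smul, Module.Basis.coord_apply, Module.Basis.repr_self, Finsupp.single_apply]
  by_cases h : S = T
  · rw [if_pos h, if_pos h.symm, smul_eq_mul, mul_one]
  · rw [if_neg h, if_neg (Ne.symm h), smul_zero, map_zero]

theorem cO_fb' (S T : Finset (Fin 3)) : K.cO S (K.fb T) = if S = T then 1 else 0 := by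
  rw [← one_smul K.O.R (K.fb T), cO_fb, K.haar_one]

theorem cO_alg (f : K.O.R) : K.cO ∅ (algebraMap _ _ f) = K.haar f := by
  rw [Algebra.algebraMap_eq_smul_one, ← K.fb_empty, cO_fb, if_pos rfl]

theorem cO_gr {p : ℕ} {w : Om ℂ K.O.R} (hw : w ∈ Om.gr ℂ K.O.R p) {S : Finset (Fin 3)}
    (hS : S.card ≠ p) : K.cO S w = 0 :=
  (congrArg K.haar (K.coord_gr hw hS)).trans (map_zero _)

/-- The average of a form. -/
def pO : Om ℂ K.O.R →ₗ[ℂ] Om ℂ K.O.R := ∑ S, (K.cO S).smulRight (K.fb S)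

theorem pO_apply (w : Om ℂ K.O.R) : K.pO w = ∑ S, K.cO S w • K.fb S := by
  rw [pO, LinearMap.sum_apply]; rfl

theorem pO_fb (f : K.O.R) (S : Finset (Fin 3)) : K.pO (f • K.fb S) = K.haar f • K.fb S := by
  simp [pO_apply, cO_fb]

theorem pO_smul (f : K.O.R) {η : Om ℂ K.O.R} (h : η ∈ K.Lm) : K.pO (f • η) = K.haar f • η := by
  have h' := K.mem_span h
  clear h
  induction h' using Submodule.span_induction with
  | mem _ hx => obtain ⟨S, rfl⟩ := hx; exact K.pO_fb f S
  | zero => simp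
  | add x y _ _ hx hy => rw [smul_add, map_add, hx, hy, smul_add]
  | smul c x _ hx => rw [smul_comm, map_smul, hx, smul_comm]

theorem pO_mul {η : Om ℂ K.O.R} (h : η ∈ K.Lm) (w : Om ℂ K.O.R) : K.pO (η * w) = η * K.pO w := by
  induction w using K.om_ind with
  | h0 => simp
  | h1 f S => rw [mul_smul_comm, K.pO_smul f (mul_mem h (K.fb_mem S)), pO_fb, mul_smul_comm]
  | h2 x y hx hy => rw [mul_add, map_add, hx, hy, map_add, mul_add]

theorem pO_sg (w : Om ℂ K.O.R) : K.pO (Om.sg w) = Om.sg (K.pO w) := by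
  induction w using K.om_ind with
  | h0 => simp
  | h1 f S => rw [map_smul, K.pO_smul f (K.sg_mem (K.fb_mem S)), pO_fb, Om.sg_csmul]
  | h2 x y hx hy => rw [map_add, map_add, hx, hy, map_add, map_add]

/-- The average commutes with the differential. -/
theorem pO_d (w : Om ℂ K.O.R) : K.pO (Om.d w) = Om.d (K.pO w) := by
  induction w using K.om_ind with
  | h0 => rw [Om.d_zero, map_zero, Om.d_zero]
  | h1 f S =>
    rw [Om.d_smul, map_add, K.pO_smul f (K.d_mem (K.fb_mem S)), pO_fb, Om.d_csmul, K.dd_R,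
      Finset.sum_mul, map_sum, Finset.sum_eq_zero, add_zero]
    intro a _
    rw [smul_mul_assoc, K.pO_smul _ (mul_mem (K.tO_mem a) (K.fb_mem S)), K.haar_R, zero_smul]
  | h2 x y hx hy => rw [Om.d_add, map_add, hx, hy, map_add, Om.d_add]

theorem pO_alg (f : K.O.R) : K.pO (algebraMap _ _ f) = K.haar f • 1 := by
  rw [Algebra.algebraMap_eq_smul_one, K.pO_smul f (one_mem _)]

end GK

end

end Vale.Agent.P286EX
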