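import Vale.Agent.P286E.QS
import Vale.Agent.P286EF.Grp
import Vale.Agent.P286EG.Ag3

/-!
# The algebra of functions on the group
-/

set_option linter.all false

namespace Vale.Agent.P286EC

open Matrix TensorProduct Vale.Agent.P286 Vale.Agent.P286E Vale.Agent.P286EG

noncomputable section

variable {G : Grp} {A B D : Type} [CommRing A] [Algebra ℂ A] [CommRing B] [Algebra ℂ B]
  [CommRing D] [Algebra ℂ D] {N : ℕ}

/-- A constant matrix. -/
abbrev cm (A : Type) [CommRing A] [Algebra ℂ A] (m : Matrix (Fin N) (Fin N) ℂ) :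
    Matrix (Fin N) (Fin N) A := m.map (algebraMap ℂ A)

theorem cm_mul (m m' : Matrix (Fin N) (Fin N) ℂ) : cm A (m * m') = cm A m * cm A m' :=
  Matrix.map_mul

theorem cm_add (m m' : Matrix (Fin N) (Fin N) ℂ) : cm A (m + m') = cm A m + cm A m' :=
  Matrix.map_add _ (map_add _) m m'

theorem cm_sub (m m' : Matrix (Fin N) (Fin N) ℂ) : cm A (m - m') = cm A m - cm A m' :=
  Matrix.map_sub _ (map_sub _) m m'

theorem cm_zero : cm A (0 : Matrix (Fin N) (Fin N) ℂ) = 0 := Matrix.map_zero _ (map_zero _)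

theorem cm_one : cm A (1 : Matrix (Fin N) (Fin N) ℂ) = 1 :=
  Matrix.map_one _ (map_zero _) (map_one _)

theorem cm_smul (c : ℂ) (m : Matrix (Fin N) (Fin N) ℂ) : cm A (c • m) = c • cm A m :=
  Matrix.ext fun i j => (map_mul (algebraMap ℂ A) c _).trans (Algebra.smul_def c _).symm

theorem cm_sum {ι : Type} (s : Finset ι) (m : ι → Matrix (Fin N) (Fin N) ℂ) :
    cm A (∑ i ∈ s, m i) = ∑ i ∈ s, cm A (m i) :=
  map_sum (algebraMap ℂ A).mapMatrix m s

theorem cm_tr (m : Matrix (Fin N) (Fin N) ℂ) : (cm A m)ᵀ = cm A mᵀ := rfl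

theorem trace_cm (m : Matrix (Fin N) (Fin N) ℂ) : trace (cm A m) = algebraMap ℂ A (trace m) :=
  (AddMonoidHom.map_trace (algebraMap ℂ A) m).symm

theorem det_cm (m : Matrix (Fin N) (Fin N) ℂ) : (cm A m).det = algebraMap ℂ A m.det :=
  (RingHom.map_det (algebraMap ℂ A) m).symm

theorem map_one' (φ : A →ₐ[ℂ] B) : (1 : Matrix (Fin N) (Fin N) A).map φ = 1 :=
  Matrix.map_one _ (map_zero _) (map_one _)

theorem map_adj (φ : A →ₐ[ℂ] B) (k : Matrix (Fin N) (Fin N) A) :
    k.adjugate.map φ = (k.map φ).adjugate := RingHom.map_adjugate (φ : A →+* B) k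

theorem map_det' (φ : A →ₐ[ℂ] B) (k : Matrix (Fin N) (Fin N) A) : (k.map φ).det = φ k.det :=
  (RingHom.map_det (φ : A →+* B) k).symm

theorem map_trace' (φ : A →ₐ[ℂ] B) (k : Matrix (Fin N) (Fin N) A) :
    trace (k.map φ) = φ (trace k) := (AddMonoidHom.map_trace φ k).symm

section Pt

variable {k : Matrix (Fin G.N) (Fin G.N) A}

theorem pt_mul_adj (h : G.Pt k) : k * k.adjugate = 1 := by rw [mul_adjugate, h.det, one_smul]

theorem pt_adj_mul (h : G.Pt k) : k.adjugate * k = 1 := by rw [adjugate_mul, h.det, one_smul]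

theorem pt_form' (h : G.Pt k) : k.adjugateᵀ * cm A G.F = cm A G.F * k := by
  conv_lhs => rw [cm, ← h.form]
  rw [← Matrix.mul_assoc, ← Matrix.mul_assoc, ← transpose_mul, pt_mul_adj h, transpose_one,
    Matrix.one_mul]

theorem pt_form'' (h : G.Pt k) : kᵀ * cm A G.F = cm A G.F * k.adjugate := by
  conv_rhs => rw [cm, ← h.form]
  rw [Matrix.mul_assoc, pt_mul_adj h, Matrix.mul_one]

theorem pt_adj (h : G.Pt k) : G.Pt k.adjugate :=
  ⟨by rw [det_adjugate, h.det, one_pow], by
    rw [pt_form' h, Matrix.mul_assoc, pt_mul_adj h, Matrix.mul_one]⟩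

theorem pt_adj_eq (h : G.Pt k) {b : Matrix (Fin G.N) (Fin G.N) A} (e : k * b = 1) :
    k.adjugate = b := by
  rw [← Matrix.mul_one k.adjugate, ← e, ← Matrix.mul_assoc, pt_adj_mul h, Matrix.one_mul]

theorem pt_adj_adj (h : G.Pt k) : k.adjugate.adjugate = k := pt_adj_eq (pt_adj h) (pt_adj_mul h)

end Pt

/-- The polynomials in the entries. -/
abbrev Pl (G : Grp) : Type := MvPolynomial (Fin G.N × Fin G.N) ℂ

/-- The generic matrix. -/
def xm (G : Grp) : Matrix (Fin G.N) (Fin G.N) (Pl G) := of fun i j => MvPolynomial.X (i, j)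

/-- The equations of the group. -/
def eqs (G : Grp) : Option (Fin G.N × Fin G.N) → Pl G
  | none => (xm G).det - 1
  | some p => ((xm G)ᵀ * cm (Pl G) G.F * xm G - cm (Pl G) G.F) p.1 p.2

/-- The functions on the group. -/
def O (G : Grp) : Type := Pl G ⧸ Ideal.span (Set.range (eqs G))

instance : CommRing (O G) := inferInstanceAs (CommRing (Pl G ⧸ Ideal.span (Set.range (eqs G))))

instance : Algebra ℂ (O G) := inferInstanceAs (Algebra ℂ (Pl G ⧸ Ideal.span (Set.range (eqs G))))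

instance : Algebra.FinitePresentation ℂ (O G) :=
  Algebra.FinitePresentation.quotient (Submodule.fg_span (Set.finite_range _))

namespace O

/-- The quotient map. -/
def mk (G : Grp) : Pl G →ₐ[ℂ] O G := Ideal.Quotient.mkₐ ℂ _

theorem mk_surj : Function.Surjective (mk G) := Ideal.Quotient.mk_surjective

theorem mk_eqs (p) : mk G (eqs G p) = 0 :=
  Ideal.Quotient.eq_zero_iff_mem.2 (Ideal.subset_span ⟨p, rfl⟩)

/-- The universal point. -/
def h (G : Grp) : Matrix (Fin G.N) (Fin G.N) (O G) := (xm G).map (mk G)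

theorem pt_of (φ : Pl G →ₐ[ℂ] A) : (∀ p, φ (eqs G p) = 0) ↔ G.Pt ((xm G).map φ) := by
  have e : ∀ i j, φ (eqs G (some (i, j))) =
      (((xm G).map φ)ᵀ * cm A G.F * (xm G).map φ) i j - cm A G.F i j := fun i j => by
    rw [cm, ← map_cm φ, ← transpose_map, ← map_mul', ← map_mul']
    exact map_sub φ _ _
  have e' : φ (eqs G none) = ((xm G).map φ).det - 1 := by
    rw [map_det', ← map_one φ]; exact map_sub φ _ _
  constructor
  · exact fun H => ⟨sub_eq_zero.1 (e' ▸ H none),
      Matrix.ext fun i j => sub_eq_zero.1 (e i j ▸ H (some (i, j)))⟩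
  · rintro H (_ | ⟨i, j⟩)
    · rw [e', H.det, sub_self]
    · rw [e, H.form, sub_self]

theorem pt (G : Grp) : G.Pt (h G) := (pt_of _).1 mk_eqs

theorem ker_of (φ : Pl G →ₐ[ℂ] A) (H : G.Pt ((xm G).map φ)) :
    ∀ a ∈ Ideal.span (Set.range (eqs G)), φ a = 0 := fun a ha => by
  have H' : Ideal.span (Set.range (eqs G)) ≤ RingHom.ker (φ : Pl G →+* A) := by
    rw [Ideal.span_le]
    rintro _ ⟨p, rfl⟩
    exact (pt_of φ).2 H p
  exact H' ha

theorem aeval_xm (k : Matrix (Fin G.N) (Fin G.N) A) :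
    (xm G).map (MvPolynomial.aeval (R := ℂ) fun p => k p.1 p.2) = k :=
  Matrix.ext fun i j => MvPolynomial.aeval_X _ (i, j)

/-- The evaluation at a point. -/
def lift {k : Matrix (Fin G.N) (Fin G.N) A} (hk : G.Pt k) : O G →ₐ[ℂ] A :=
  Ideal.Quotient.liftₐ _ (MvPolynomial.aeval fun p => k p.1 p.2)
    (ker_of _ (by rwa [aeval_xm]))

theorem lift_h {k : Matrix (Fin G.N) (Fin G.N) A} (hk : G.Pt k) (i j) : lift hk (h G i j) = k i j :=
  MvPolynomial.aeval_X _ (i, j)

theorem map_lift {k : Matrix (Fin G.N) (Fin G.N) A} (hk : G.Pt k) : (h G).map (lift hk) = k :=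
  Matrix.ext (lift_h hk)

theorem hom_ext {φ ψ : O G →ₐ[ℂ] A} (H : (h G).map φ = (h G).map ψ) : φ = ψ :=
  Ideal.Quotient.algHom_ext ℂ (MvPolynomial.algHom_ext fun p => congrFun (congrFun H p.1) p.2)

theorem induction {P : O G → Prop} (x : O G) (h1 : ∀ c, P (algebraMap ℂ _ c))
    (h2 : ∀ x y, P x → P y → P (x + y)) (h3 : ∀ x i j, P x → P (x * h G i j)) : P x := by
  obtain ⟨p, rfl⟩ := mk_surj x
  induction p using MvPolynomial.induction_on with
  | C c => exact (mk G).commutes c ▸ h1 c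
  | add p q hp hq => rw [map_add]; exact h2 _ _ hp hq
  | mul_X p n hp => rw [map_mul]; exact h3 _ n.1 n.2 hp

instance : Nontrivial (O G) := (lift (Grp.Pt.one (A := ℂ) G)).domain_nontrivial

end O

/-- The functions on `Spec A × G`. -/
abbrev OG (G : Grp) (A : Type) [CommRing A] [Algebra ℂ A] : Type := A ⊗[ℂ] O G

namespace OG

/-- The projection to `Spec A`. -/
def of (G : Grp) (A : Type) [CommRing A] [Algebra ℂ A] : A →ₐ[ℂ] OG G A :=
  Algebra.TensorProduct.includeLeft

theorem of_eq (a : A) : of G A a = algebraMap A (OG G A) a := rfl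

/-- The projection to the group. -/
def ir (G : Grp) (A : Type) [CommRing A] [Algebra ℂ A] : O G →ₐ[ℂ] OG G A :=
  Algebra.TensorProduct.includeRight

theorem tmul_eq (a : A) (x : O G) : a ⊗ₜ[ℂ] x = of G A a * ir G A x := by
  simp [of, ir]

/-- The universal point. -/
def h (G : Grp) (A : Type) [CommRing A] [Algebra ℂ A] : Matrix (Fin G.N) (Fin G.N) (OG G A) :=
  (O.h G).map (ir G A)

theorem pt (G : Grp) (A : Type) [CommRing A] [Algebra ℂ A] : G.Pt (h G A) := (O.pt G).map _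

variable {k : Matrix (Fin G.N) (Fin G.N) B}

/-- The universal property. -/
def lift (f : A →ₐ[ℂ] B) (hk : G.Pt k) : OG G A →ₐ[ℂ] B :=
  Algebra.TensorProduct.lift f (O.lift hk) fun _ _ => Commute.all _ _

theorem lift_of (f : A →ₐ[ℂ] B) (hk : G.Pt k) (a : A) : lift f hk (of G A a) = f a := by
  simp [lift, of]

theorem lift_ir (f : A →ₐ[ℂ] B) (hk : G.Pt k) (x : O G) : lift f hk (ir G A x) = O.lift hk x := by
  simp [lift, ir]

theorem lift_h (f : A →ₐ[ℂ] B) (hk : G.Pt k) (i j) : lift f hk (h G A i j) = k i j :=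
  (lift_ir f hk _).trans (O.lift_h hk i j)

theorem map_lift (f : A →ₐ[ℂ] B) (hk : G.Pt k) : (h G A).map (lift f hk) = k :=
  Matrix.ext (lift_h f hk)

theorem lift_comp_of (f : A →ₐ[ℂ] B) (hk : G.Pt k) : (lift f hk).comp (of G A) = f :=
  AlgHom.ext (lift_of f hk)

theorem hom_ext {φ ψ : OG G A →ₐ[ℂ] B} (H : ∀ a, φ (of G A a) = ψ (of G A a))
    (H' : (h G A).map φ = (h G A).map ψ) : φ = ψ :=
  Algebra.TensorProduct.ext (AlgHom.ext H)
    (O.hom_ext (φ := φ.comp (ir G A)) (ψ := ψ.comp (ir G A)) H')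

theorem comp_lift (f : A →ₐ[ℂ] B) (hk : G.Pt k) (g : B →ₐ[ℂ] D) :
    g.comp (lift f hk) = lift (g.comp f) (hk.map g) :=
  hom_ext (fun a => by rw [lift_of, AlgHom.comp_apply, lift_of]; rfl)
    (Matrix.ext fun i j => by
      rw [map_apply, map_apply, lift_h, AlgHom.comp_apply, lift_h]; rfl)

theorem lift_self : lift (of G A) (pt G A) = AlgHom.id ℂ _ :=
  hom_ext (lift_of _ _) (map_lift _ _)

theorem induction {P : OG G A → Prop} (x : OG G A) (h1 : ∀ a, P (of G A a))
    (h2 : ∀ x y, P x → P y → P (x + y)) (h3 : ∀ x i j, P x → P (x * h G A i j)) : P x := by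
  induction x using TensorProduct.induction_on with
  | zero => exact map_zero (of G A) ▸ h1 0
  | add x y hx hy => exact h2 _ _ hx hy
  | tmul a x =>
    rw [tmul_eq]
    induction x using O.induction with
    | h1 c => rw [AlgHom.commutes, ← (of G A).commutes, ← map_mul]; exact h1 _
    | h2 x y hx hy => rw [map_add, mul_add]; exact h2 _ _ hx hy
    | h3 x i j hx => rw [map_mul, ← mul_assoc]; exact h3 _ i j hx

/-- The base change. -/
def map (G : Grp) (f : A →ₐ[ℂ] B) : OG G A →ₐ[ℂ] OG G B :=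
  Algebra.TensorProduct.map f (AlgHom.id ℂ _)

theorem map_of (f : A →ₐ[ℂ] B) (a : A) : map G f (of G A a) = of G B (f a) := by simp [map, of]

theorem map_ir (f : A →ₐ[ℂ] B) (x : O G) : map G f (ir G A x) = ir G B x := by
  simp [map, ir]

theorem map_h (f : A →ₐ[ℂ] B) (i j) : map G f (h G A i j) = h G B i j := map_ir f _

theorem map_map (f : A →ₐ[ℂ] B) : (h G A).map (map G f) = h G B := Matrix.ext (map_h f)

theorem map_eq_lift (f : A →ₐ[ℂ] B) : map G f = lift ((of G B).comp f) (pt G B) :=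
  hom_ext (fun a => by rw [map_of, lift_of]; rfl) (by rw [map_map, map_lift])

theorem map_id : map G (AlgHom.id ℂ A) = AlgHom.id ℂ _ := Algebra.TensorProduct.map_id

theorem map_comp (f : A →ₐ[ℂ] B) (g : B →ₐ[ℂ] D) :
    map G (g.comp f) = (map G g).comp (map G f) :=
  hom_ext (fun a => by simp only [AlgHom.comp_apply, map_of])
    (Matrix.ext fun i j => by simp only [map_apply, AlgHom.comp_apply, map_h])

theorem lift_map (f : A →ₐ[ℂ] B) (g : B →ₐ[ℂ] D) {k : Matrix (Fin G.N) (Fin G.N) D} (hk : G.Pt k) :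
    (lift g hk).comp (map G f) = lift (g.comp f) hk :=
  hom_ext (fun a => by simp only [AlgHom.comp_apply, map_of, lift_of])
    (Matrix.ext fun i j => by simp only [map_apply, AlgHom.comp_apply, map_h, lift_h])

theorem flat : (of G A : A →+* OG G A).Flat :=
  RingHom.flat_algebraMap_iff.2 inferInstance

/-- The base change square. -/
theorem po (f : A →ₐ[ℂ] B) :
    PO (f : A →+* B) (of G A : A →+* OG G A) (of G B : B →+* OG G B)
      (map G f : OG G A →+* OG G B) := by
  let _ := (f : A →+* B).toAlgebra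
  have : IsScalarTower ℂ A B := .of_algebraMap_eq fun c => (f.commutes c).symm
  let _ := (map G f : OG G A →+* OG G B).toAlgebra
  have : IsScalarTower A (OG G A) (OG G B) := .of_algebraMap_eq fun a => (map_of f a).symm
  have : Algebra.IsPushout A B (OG G A) (OG G B) :=
    Algebra.IsPushout.tensorProduct_tensorProduct ℂ (O G) A B (RingHom.ext (map_ir f))
  exact PO.of_inst

/-- The left translation `h ↦ k h` over `f`. -/
def lt (f : A →ₐ[ℂ] B) (hk : G.Pt k) : OG G A →ₐ[ℂ] OG G B :=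
  lift ((of G B).comp f) ((hk.map (of G B)).mul (pt G B))

/-- The right translation `h ↦ h k` over `f`. -/
def rt (f : A →ₐ[ℂ] B) (hk : G.Pt k) : OG G A →ₐ[ℂ] OG G B :=
  lift ((of G B).comp f) ((pt G B).mul (hk.map (of G B)))

theorem lt_of (f : A →ₐ[ℂ] B) (hk : G.Pt k) (a : A) : lt f hk (of G A a) = of G B (f a) :=
  lift_of _ _ a

theorem rt_of (f : A →ₐ[ℂ] B) (hk : G.Pt k) (a : A) : rt f hk (of G A a) = of G B (f a) :=
  lift_of _ _ a

theorem map_lt (f : A →ₐ[ℂ] B) (hk : G.Pt k) :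
    (h G A).map (lt f hk) = k.map (of G B) * h G B := map_lift _ _

theorem map_rt (f : A →ₐ[ℂ] B) (hk : G.Pt k) :
    (h G A).map (rt f hk) = h G B * k.map (of G B) := map_lift _ _

end OG

end

end Vale.Agent.P286EC
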