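import Vale.Agent.P286EC.Nice

/-!
# The Lie algebra, invariant vector fields
-/

set_option linter.all false

namespace Vale.Agent.P286EC

open Matrix TensorProduct Vale.Agent.P286 Vale.Agent.P286E Vale.Agent.P286EG TrivSqZeroExt

noncomputable section

variable {G : Grp} {A B D : Type} [CommRing A] [Algebra ℂ A] [CommRing B] [Algebra ℂ B]
  [CommRing D] [Algebra ℂ D] {N : ℕ}

/-- The Lie algebra. -/
def InL (G : Grp) (m : Matrix (Fin G.N) (Fin G.N) A) : Prop := mᵀ * cm A G.F + cm A G.F * m = 0

theorem InL.beta [Nice G] (a : Fin 3) : InL G (cm A (G.β a)) := by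
  rw [InL, cm_tr, ← cm_mul, ← cm_mul, ← cm_add, Nice.ok.lie, cm_zero]

theorem InL.span [Nice G] {m : Matrix (Fin G.N) (Fin G.N) A} (h : InL G m) :
    m = ∑ a, ((2⁻¹ : ℂ) • trace (cm A (G.β a) * m)) • cm A (G.β a) := by
  simp only [Algebra.smul_def (2⁻¹ : ℂ)]
  exact Nice.ok.span A (algebraMap ℂ A) m h

theorem InL.conj {m k : Matrix (Fin G.N) (Fin G.N) A} (h : InL G m) (hk : G.Pt k) :
    InL G (k * m * k.adjugate) := by
  rw [InL, transpose_mul, transpose_mul, Matrix.mul_assoc, Matrix.mul_assoc, pt_form'' hk,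
    ← Matrix.mul_assoc mᵀ, eq_neg_of_add_eq_zero_left h, Matrix.neg_mul, Matrix.mul_neg,
    ← Matrix.mul_assoc, ← Matrix.mul_assoc, pt_form' hk, ← Matrix.mul_assoc, ← Matrix.mul_assoc,
    neg_add_cancel]

theorem InL.br {m n : Matrix (Fin G.N) (Fin G.N) A} (h : InL G m) (h' : InL G n) :
    InL G (m * n - n * m) := by
  rw [InL, transpose_sub, transpose_mul, transpose_mul, Matrix.sub_mul, Matrix.mul_assoc,
    Matrix.mul_assoc, eq_neg_of_add_eq_zero_left h, eq_neg_of_add_eq_zero_left h', Matrix.mul_neg,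
    Matrix.mul_neg, ← Matrix.mul_assoc, ← Matrix.mul_assoc, eq_neg_of_add_eq_zero_left h,
    eq_neg_of_add_eq_zero_left h', Matrix.mul_sub]
  simp only [Matrix.neg_mul, Matrix.mul_assoc]
  abel

theorem InL.trace [Nice G] {m : Matrix (Fin G.N) (Fin G.N) A} (h : InL G m) : trace m = 0 := by
  have h1 := congrArg (fun x => Matrix.trace (x * cm A G.F.adjugate)) h
  simp only [Matrix.add_mul, trace_add, Matrix.zero_mul, trace_zero] at h1
  rw [Matrix.mul_assoc, adjF, Matrix.mul_one, trace_transpose, trace_mul_comm,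
    ← Matrix.mul_assoc, adjF', Matrix.one_mul] at h1
  linear_combination algebraMap ℂ A 2⁻¹ * h1 - Matrix.trace m * iota_half (algebraMap ℂ A)

theorem pt_eps [Nice G] {m : Matrix (Fin G.N) (Fin G.N) A} (h : InL G m) {e : A} (he : e * e = 0) :
    G.Pt (1 + e • m) := by
  refine ⟨by rw [det_one_add_smul, h.trace, pow_two, he]; simp, ?_⟩
  simp only [transpose_add, transpose_one, transpose_smul, Matrix.add_mul, Matrix.mul_add,
    Matrix.one_mul, Matrix.mul_one, Matrix.smul_mul, Matrix.mul_smul, smul_add, smul_smul, he,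
    zero_smul, add_zero]
  rw [add_assoc, ← smul_add]
  exact (congrArg (fun x => cm A G.F + e • x) h).trans (by rw [smul_zero, add_zero])

theorem InL.tangent {k e : Matrix (Fin G.N) (Fin G.N) A} (hk : G.Pt k) (h : G.Pt (k + e))
    (he : eᵀ * cm A G.F * e = 0) : InL G (e * k.adjugate) := by
  have h1 := h.form
  rw [transpose_add, Matrix.add_mul, Matrix.add_mul, Matrix.mul_add, Matrix.mul_add, hk.form, he,
    add_zero, add_assoc, add_eq_left] at h1
  have h2 := congrArg (fun x => k.adjugateᵀ * x * k.adjugate) h1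
  simp only [Matrix.mul_add, Matrix.add_mul, Matrix.mul_zero, Matrix.zero_mul,
    Matrix.mul_assoc] at h2
  rw [pt_mul_adj hk, Matrix.mul_one, ← Matrix.mul_assoc, ← transpose_mul, pt_mul_adj hk,
    transpose_one, Matrix.one_mul, add_comm] at h2
  rw [InL, transpose_mul, Matrix.mul_assoc]
  exact h2

/-- The Maurer-Cartan equation for a derivation with values in a module. -/
theorem der_pt [Nice G] {M : Type} [AddCommGroup M] [Module B M] [Module ℂ M]
    [IsScalarTower ℂ B M] (w : Derivation ℂ B M) {k : Matrix (Fin G.N) (Fin G.N) B} (hk : G.Pt k)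
    (p q : Fin G.N) : w (k p q) = ∑ a, (cm B (G.β a) * k) p q •
      ((2⁻¹ : ℂ) • ∑ r, ∑ s, (k.adjugate * cm B (G.β a)) s r • w (k r s)) := by
  let _ : Module Bᵐᵒᵖ M := Module.compHom M ((RingHom.id B).fromOpposite mul_comm)
  have : IsCentralScalar B M := ⟨fun _ _ => rfl⟩
  have : IsScalarTower ℂ Bᵐᵒᵖ M := ⟨fun c b m => smul_assoc c b.unop m⟩
  let i : B →ₐ[ℂ] TrivSqZeroExt B M := inlAlgHom ℂ B M
  let φ : B →ₐ[ℂ] TrivSqZeroExt B M :=
    { toFun := fun b => inl b + inr (w b)
      map_one' := by simp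
      map_mul' := fun a b => TrivSqZeroExt.ext (by simp) (by simp [add_comm])
      map_zero' := by simp
      map_add' := fun a b => TrivSqZeroExt.ext (by simp) (by simp)
      commutes' := fun c => TrivSqZeroExt.ext (by simp [algebraMap_eq_inl'])
        (by simp [algebraMap_eq_inl']) }
  let e : Matrix (Fin G.N) (Fin G.N) (TrivSqZeroExt B M) := of fun p q => inr (w (k p q))
  have h1 : InI (kerIdeal B M) e := fun p q => (mem_kerIdeal_iff_inr B M _).2 rfl
  have h2 : InL G (e * (k.map i).adjugate) :=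
    InL.tangent (hk.map i) (hk.map φ) ((InI.mul_right (m := eᵀ) (fun p q => h1 q p) _).mul
      (kerIdeal_sq B M) h1)
  have h3 := congrArg (fun x => x * k.map i) h2.span
  simp only [Matrix.mul_assoc, pt_adj_mul (hk.map i), Matrix.mul_one, Matrix.sum_mul,
    Matrix.smul_mul] at h3
  have h4 := congrArg snd (congrFun (congrFun h3 p) q)
  rw [Matrix.sum_apply, snd_sum] at h4
  refine h4.trans (Finset.sum_congr rfl fun a _ => ?_)
  have h5 : trace (cm (TrivSqZeroExt B M) (G.β a) * (e * (k.map i).adjugate)) =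
      inr (∑ r, ∑ s, (k.adjugate * cm B (G.β a)) s r • w (k r s)) := by
    rw [trace_mul_comm, Matrix.mul_assoc, ← map_adj, cm, ← map_cm i, ← map_mul', inr_sum]
    refine Finset.sum_congr rfl fun r _ => ?_
    rw [inr_sum, diag_apply, Matrix.mul_apply]
    refine Finset.sum_congr rfl fun s _ => ?_
    exact (mul_comm _ _).trans (inl_mul_inr _ _)
  have h6 : cm (TrivSqZeroExt B M) (G.β a) * k.map i = (cm B (G.β a) * k).map i := by
    rw [map_mul', map_cm]
  rw [h5, h6, Matrix.smul_apply, ← inr_smul, smul_eq_mul, mul_comm]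
  exact congrArg snd (inl_mul_inr _ _)

/-- A derivation from a section with values in the dual numbers. -/
def derOf (φ : A →ₐ[ℂ] TrivSqZeroExt A A) (h : ∀ x, (φ x).fst = x) : Derivation ℂ A A :=
  Derivation.mk' ((sndHom A A).restrictScalars ℂ ∘ₗ φ.toLinearMap) fun a b => by
    change (φ (a * b)).snd = a * (φ b).snd + b * (φ a).snd
    rw [map_mul, snd_mul, h, h, smul_eq_mul, op_smul_eq_mul, mul_comm (φ a).snd]

theorem derOf_apply (φ : A →ₐ[ℂ] TrivSqZeroExt A A) (h : ∀ x, (φ x).fst = x) (x : A) :
    derOf φ h x = (φ x).snd := rfl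

/-- The matrix `k + ε m`. -/
def dn (k m : Matrix (Fin N) (Fin N) A) : Matrix (Fin N) (Fin N) (TrivSqZeroExt A A) :=
  of fun i j => inl (k i j) + inr (m i j)

theorem dn_eq (k m : Matrix (Fin N) (Fin N) A) : dn k m = k.map (inlAlgHom ℂ A A) +
    (inr 1 : TrivSqZeroExt A A) • m.map (inlAlgHom ℂ A A) :=
  Matrix.ext fun i j => TrivSqZeroExt.ext (by simp [dn]) (by simp [dn])

theorem pt_dn [Nice G] {k m : Matrix (Fin G.N) (Fin G.N) A} (hk : G.Pt k) (hm : InL G m) :
    G.Pt (dn k (k * m)) ∧ G.Pt (dn k (m * k)) := by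
  have h1 : InL G (m.map (inlAlgHom ℂ A A)) := by
    have := congrArg (fun x => x.map (inlAlgHom ℂ A A)) hm
    rwa [Matrix.map_add _ (map_add _), map_mul', map_mul', map_cm, transpose_map,
      Matrix.map_zero _ (map_zero _)] at this
  have h2 := pt_eps h1 (inr_mul_inr A (1 : A) 1)
  constructor
  · have := (hk.map (inlAlgHom ℂ A A)).mul h2
    rwa [Matrix.mul_add, Matrix.mul_one, Matrix.mul_smul, ← map_mul', ← dn_eq] at this
  · have := h2.mul (hk.map (inlAlgHom ℂ A A))
    rwa [Matrix.add_mul, Matrix.one_mul, Matrix.smul_mul, ← map_mul', ← dn_eq] at this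

namespace O

/-- The vector field with the given values on the entries. -/
def der (m : Matrix (Fin G.N) (Fin G.N) (O G)) (hm : G.Pt (dn (h G) m)) :
    Derivation ℂ (O G) (O G) :=
  derOf (lift hm) fun x => AlgHom.congr_fun
    (hom_ext (φ := (fstHom ℂ (O G) (O G)).comp (lift hm)) (ψ := AlgHom.id ℂ _)
      (Matrix.ext fun i j => (congrArg fst (lift_h hm i j)).trans (add_zero _))) x

theorem der_h (m : Matrix (Fin G.N) (Fin G.N) (O G)) (hm : G.Pt (dn (h G) m)) (i j) :
    der m hm (h G i j) = m i j := (congrArg snd (lift_h hm i j)).trans (zero_add _)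

variable [Nice G]

/-- The left invariant vector fields. -/
def L (G : Grp) [Nice G] (a : Fin 3) : Derivation ℂ (O G) (O G) :=
  der _ (pt_dn (pt G) (InL.beta a)).1

/-- The right invariant vector fields. -/
def R (G : Grp) [Nice G] (a : Fin 3) : Derivation ℂ (O G) (O G) :=
  der _ (pt_dn (pt G) (InL.beta a)).2

theorem L_h (a i j) : L G a (h G i j) = (h G * cm (O G) (G.β a)) i j := der_h _ _ i j

theorem R_h (a i j) : R G a (h G i j) = (cm (O G) (G.β a) * h G) i j := der_h _ _ i j

omit [Nice G] in
/-- Derivations along a homomorphism are determined by the values on the entries. -/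
theorem der_ext (φ : O G →ₐ[ℂ] B) (u v : O G →ₗ[ℂ] B)
    (hu : ∀ x y, u (x * y) = φ x * u y + φ y * u x) (hv : ∀ x y, v (x * y) = φ x * v y + φ y * v x)
    (H : ∀ i j, u (h G i j) = v (h G i j)) (x : O G) : u x = v x := by
  have h1 := hu 1 1
  have h2 := hv 1 1
  rw [mul_one, map_one φ, one_mul, left_eq_add] at h1 h2
  induction x using induction with
  | h1 c => rw [Algebra.algebraMap_eq_smul_one, map_smul, map_smul, h1, h2]
  | h2 x y hx hy => rw [map_add, map_add, hx, hy]
  | h3 x i j hx => rw [hu, hv, hx, H]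

end O

theorem der_mul_cm (w : Derivation ℂ A A) (k : Matrix (Fin N) (Fin N) A)
    (m : Matrix (Fin N) (Fin N) ℂ) : (k * cm A m).map w = k.map w * cm A m :=
  Matrix.ext fun i j => by
    simp only [map_apply, Matrix.mul_apply, map_sum, Derivation.leibniz,
      Derivation.map_algebraMap, smul_eq_mul, mul_zero, zero_add]
    exact Finset.sum_congr rfl fun _ _ => mul_comm _ _

theorem der_cm_mul (w : Derivation ℂ A A) (k : Matrix (Fin N) (Fin N) A)
    (m : Matrix (Fin N) (Fin N) ℂ) : (cm A m * k).map w = cm A m * k.map w :=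
  Matrix.ext fun i j => by
    simp only [map_apply, Matrix.mul_apply, map_sum, Derivation.leibniz,
      Derivation.map_algebraMap, add_zero, smul_eq_mul, mul_zero]

theorem der_mul (w : Derivation ℂ A A) (k l : Matrix (Fin N) (Fin N) A) :
    (k * l).map w = k.map w * l + k * l.map w :=
  Matrix.ext fun i j => by
    simp only [map_apply, Matrix.mul_apply, map_sum, Derivation.leibniz, smul_eq_mul,
      Matrix.add_apply, ← Finset.sum_add_distrib]
    exact Finset.sum_congr rfl fun _ _ => by ring

/-- The extension of a derivation of the right factor. -/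
def lT (A : Type) [CommRing A] [Algebra ℂ A] (w : Derivation ℂ B B) :
    Derivation ℂ (A ⊗[ℂ] B) (A ⊗[ℂ] B) :=
  Derivation.mk' (w.toLinearMap.lTensor A) fun x y => by
    induction x using TensorProduct.induction_on with
    | zero => simp
    | add x x' h h' => simp only [add_mul, map_add, h, h', add_smul, smul_add]; abel
    | tmul a b =>
      induction y using TensorProduct.induction_on with
      | zero => simp
      | add y y' h h' => simp only [mul_add, map_add, h, h', add_smul, smul_add]; abel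
      | tmul a' b' => simp [tmul_add, mul_comm]

theorem lT_tmul (w : Derivation ℂ B B) (a : A) (b : B) : lT A w (a ⊗ₜ b) = a ⊗ₜ w b := rfl

theorem lT_apply (w : Derivation ℂ B B) (x : A ⊗[ℂ] B) :
    lT A w x = w.toLinearMap.lTensor A x := rfl

/-- The extension of a derivation of the left factor. -/
def rT (B : Type) [CommRing B] [Algebra ℂ B] (w : Derivation ℂ A A) :
    Derivation ℂ (A ⊗[ℂ] B) (A ⊗[ℂ] B) :=
  Derivation.mk' (w.toLinearMap.rTensor B) fun x y => by
    induction x using TensorProduct.induction_on with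
    | zero => simp
    | add x x' h h' => simp only [add_mul, map_add, h, h', add_smul, smul_add]; abel
    | tmul a b =>
      induction y using TensorProduct.induction_on with
      | zero => simp
      | add y y' h h' => simp only [mul_add, map_add, h, h', add_smul, smul_add]; abel
      | tmul a' b' => simp [add_tmul, mul_comm]

theorem rT_tmul (w : Derivation ℂ A A) (a : A) (b : B) : rT B w (a ⊗ₜ b) = w a ⊗ₜ b := rfl

theorem rT_apply (w : Derivation ℂ A A) (x : A ⊗[ℂ] B) :
    rT B w x = w.toLinearMap.rTensor B x := rfl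

end

end Vale.Agent.P286EC
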