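import Vale.Agent.P286EC.Haar
import Vale.Agent.P286EX.Defs

/-!
# The group kits of `SL_2` and `SO_3`
-/

set_option linter.all false

namespace Vale.Agent.P286EC

open Matrix TensorProduct Vale.Agent.P286 Vale.Agent.P286E Vale.Agent.P286EX

noncomputable section

/-- The group kit. -/
def gk (G : Grp) [Nice G] (κ : ℂ) (hκ : κ ≠ 0)
    (br : ∀ a b, G.β a * G.β b - G.β b * G.β a = ∑ c, (κ * eps a b c) • G.β c) : GK G where
  O := ⟨O G⟩
  g := O.h G
  pt := O.pt G
  ev _ hh := O.lift hh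
  ev_g _ hh := O.map_lift hh
  ext _ _ := O.hom_ext
  κ := κ
  κ_ne := hκ
  br := br
  tr := Nice.ok.tr
  adj := pt_adj
  ad_eq {B _ _ h} hh b := by
    have e := congrArg (· * h) ((InL.beta (A := B) b).conj hh).span
    simp only [Matrix.mul_assoc, pt_adj_mul hh, Matrix.mul_one] at e
    simpa only [adm, bt, of_apply, Matrix.mul_assoc] using e
  th_eq hh p q := der_pt (KaehlerDifferential.D ℂ _) hh p q
  R := O.R G
  R_g := O.map_R
  L := O.L G
  L_g := O.map_L
  haar := O.haar G
  haar_one := O.haar_one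
  haar_l := O.haar_l
  const := O.const
  lf f := (O.exists_Fl f).elim fun n hn => ⟨O.Fl G n, hn, O.Fl_fin n, fun a _ => O.L_Fl a n⟩

theorem br2 (a b : Fin 3) : b2 a * b2 b - b2 b * b2 a = ∑ c, (2 * Complex.I * eps a b c) • b2 c := by
  rw [Fin.sum_univ_three]
  ext i j
  fin_cases a <;> fin_cases b <;> fin_cases i <;> fin_cases j <;>
    simp [b2, eps, Matrix.mul_apply, Fin.sum_univ_two, mul_assoc] <;> ring

theorem br3 (a b : Fin 3) : b3 a * b3 b - b3 b * b3 a = ∑ c, (Complex.I * eps a b c) • b3 c := by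
  rw [Fin.sum_univ_three]
  ext i j
  fin_cases a <;> fin_cases b <;> fin_cases i <;> fin_cases j <;>
    simp [b3, eps, Matrix.mul_apply, Fin.sum_univ_three]

/-- The group kit of `SL_2`. -/
def gk2 : GK SL2 := gk SL2 (2 * Complex.I) (mul_ne_zero two_ne_zero Complex.I_ne_zero) br2

/-- The group kit of `SO_3`. -/
def gk3 : GK SO3 := gk SO3 Complex.I Complex.I_ne_zero br3

theorem gk2_κ : gk2.κ = 2 * Complex.I := rfl

theorem gk3_κ : gk3.κ = Complex.I := rfl

end

end Vale.Agent.P286EC
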