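import Vale.Agent.P286EC.Der

/-!
# The invariant integral
-/

set_option linter.all false

namespace Vale.Agent.P286EC

open Matrix TensorProduct Vale.Agent.P286 Vale.Agent.P286E Vale.Agent.P286EG

noncomputable section

variable {G : Grp} {A B D : Type} [CommRing A] [Algebra ℂ A] [CommRing B] [Algebra ℂ B]
  [CommRing D] [Algebra ℂ D] {N : ℕ}

namespace O

/-- The filtration by the degree. -/
def Fl (G : Grp) (n : ℕ) : Submodule ℂ (O G) := ent (h G) ^ n

theorem Fl_succ (n : ℕ) : Fl G (n + 1) = Fl G n * ent (h G) := pow_succ _ n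

theorem mul_Fl {n : ℕ} {x y : O G} (hx : x ∈ Fl G n) (hy : y ∈ ent (h G)) : x * y ∈ Fl G (n + 1) :=
  Fl_succ (G := G) n ▸ Submodule.mul_mem_mul hx hy

theorem mem_zero {x : O G} : x ∈ Fl G 0 ↔ ∃ c, algebraMap ℂ (O G) c = x := by
  rw [Fl, pow_zero, Submodule.mem_one]

theorem Fl_step {n : ℕ} {x : O G} (hx : x ∈ Fl G n) : x ∈ Fl G (n + 1) :=
  mul_one x ▸ mul_Fl hx (one_ent _)

theorem Fl_mono {m n : ℕ} (hmn : m ≤ n) {x : O G} (hx : x ∈ Fl G m) : x ∈ Fl G n := by
  induction hmn with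
  | refl => exact hx
  | step _ ih => exact Fl_step ih

theorem exists_Fl (x : O G) : ∃ n, x ∈ Fl G n := by
  induction x using induction with
  | h1 c => exact ⟨0, mem_zero.2 ⟨c, rfl⟩⟩
  | h2 x y hx hy =>
    obtain ⟨m, hm⟩ := hx
    obtain ⟨n, hn⟩ := hy
    exact ⟨max m n, add_mem (Fl_mono (le_max_left _ _) hm) (Fl_mono (le_max_right _ _) hn)⟩
  | h3 x i j hx => exact hx.elim fun n hn => ⟨n + 1, mul_Fl hn (mem_ent _ i j)⟩

theorem Fl_ind {n : ℕ} {P : O G → Prop} {x : O G} (hx : x ∈ Fl G (n + 1))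
    (h1 : ∀ y ∈ Fl G n, ∀ z ∈ ent (h G), P (y * z)) (h2 : ∀ y z, P y → P z → P (y + z)) : P x :=
  Submodule.mul_induction_on (C := P) (Fl_succ (G := G) n ▸ hx) h1 h2

theorem ent_ind {k : Matrix (Fin N) (Fin N) A} {W : Submodule ℂ A} (h1 : 1 ∈ W)
    (h2 : ∀ i j, k i j ∈ W) : ent k ≤ W := by
  refine Submodule.span_le.2 ?_
  rintro _ (rfl | ⟨p, rfl⟩)
  exacts [h1, h2 p.1 p.2]

theorem Fl_fin (n : ℕ) : Module.Finite ℂ (Fl G n) :=
  Module.Finite.iff_fg.2 (Submodule.FG.pow
    (Submodule.fg_span ((Set.finite_range _).insert _)) n)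

/-- A vector field which preserves the span of the entries preserves the filtration. -/
theorem der_Fl (w : Derivation ℂ (O G) (O G)) (hw : ∀ i j, w (h G i j) ∈ ent (h G)) (n : ℕ)
    {x : O G} (hx : x ∈ Fl G n) : w x ∈ Fl G n := by
  have h1 : ent (h G) ≤ (ent (h G)).comap w.toLinearMap :=
    ent_ind (by simp) hw
  induction n generalizing x with
  | zero => obtain ⟨c, rfl⟩ := mem_zero.1 hx; simp
  | succ n ih =>
    refine Fl_ind (P := fun x => w x ∈ Fl G (n + 1)) hx (fun y hy z hz => ?_) fun y z hy hz => ?_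
    · rw [Derivation.leibniz, smul_eq_mul, smul_eq_mul, mul_comm z]
      exact add_mem (mul_Fl hy (h1 hz)) (mul_Fl (ih hy) hz)
    · rw [map_add]; exact add_mem hy hz

theorem mul_cm_ent (k : Matrix (Fin N) (Fin N) A) (m : Matrix (Fin N) (Fin N) ℂ) (i j) :
    (k * cm A m) i j ∈ ent k := by
  rw [Matrix.mul_apply]
  refine Submodule.sum_mem _ fun l _ => ?_
  rw [mul_comm, cm, map_apply, ← Algebra.smul_def]
  exact Submodule.smul_mem _ _ (mem_ent k i l)

theorem cm_mul_ent (k : Matrix (Fin N) (Fin N) A) (m : Matrix (Fin N) (Fin N) ℂ) (i j) :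
    (cm A m * k) i j ∈ ent k := by
  rw [Matrix.mul_apply]
  refine Submodule.sum_mem _ fun l _ => ?_
  rw [cm, map_apply, ← Algebra.smul_def]
  exact Submodule.smul_mem _ _ (mem_ent k l j)

variable [Nice G]

theorem L_Fl (a : Fin 3) (n : ℕ) {x : O G} (hx : x ∈ Fl G n) : L G a x ∈ Fl G n :=
  der_Fl _ (fun i j => L_h (G := G) a i j ▸ mul_cm_ent _ _ i j) n hx

theorem R_Fl (a : Fin 3) (n : ℕ) {x : O G} (hx : x ∈ Fl G n) : R G a x ∈ Fl G n :=
  der_Fl _ (fun i j => R_h (G := G) a i j ▸ cm_mul_ent _ _ i j) n hx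

theorem map_L (a : Fin 3) : (h G).map (L G a) = h G * cm (O G) (G.β a) := Matrix.ext (L_h a)

theorem map_R (a : Fin 3) : (h G).map (R G a) = cm (O G) (G.β a) * h G := Matrix.ext (R_h a)

/-- The Casimir operator. -/
def cas (G : Grp) [Nice G] : O G →ₗ[ℂ] O G := ∑ a, (L G a).toLinearMap ∘ₗ (L G a).toLinearMap

theorem cas_apply (x : O G) : cas G x = ∑ a, L G a (L G a x) := by
  simp [cas]

/-- The pairing of the gradients. -/
def grd (G : Grp) [Nice G] : O G →ₗ[ℂ] O G →ₗ[ℂ] O G :=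
  ∑ a, (LinearMap.mul ℂ (O G)).compl₁₂ (L G a).toLinearMap (L G a).toLinearMap

theorem grd_apply (x y : O G) : grd G x y = ∑ a, L G a x * L G a y := by
  simp [grd]

theorem grd_mul (x y z : O G) : grd G (x * y) z = x * grd G y z + y * grd G x z := by
  simp only [grd_apply, Derivation.leibniz, smul_eq_mul, Finset.mul_sum, ← Finset.sum_add_distrib]
  exact Finset.sum_congr rfl fun a _ => by ring

theorem cas_mul (x y : O G) : cas G (x * y) = x * cas G y + 2 * grd G x y + y * cas G x := by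
  simp only [cas_apply, grd_apply, Derivation.leibniz, smul_eq_mul, Finset.mul_sum, map_add,
    ← Finset.sum_add_distrib]
  exact Finset.sum_congr rfl fun a _ => by ring

theorem grd_ent {x y : O G} (hx : x ∈ ent (h G)) (hy : y ∈ ent (h G)) :
    grd G x y - x * y ∈ ent (h G) := by
  refine ent_ind (W := (ent (h G)).comap ((grd G - LinearMap.mul ℂ (O G)).flip y)) ?_
    (fun a b => ?_) hx
  · change grd G 1 y - 1 * y ∈ ent (h G)
    simpa [grd_apply] using hy
  · refine ent_ind (W := (ent (h G)).comap ((grd G - LinearMap.mul ℂ (O G)) (h G a b))) ?_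
      (fun c d => ?_) hy
    · change grd G (h G a b) 1 - h G a b * 1 ∈ ent (h G)
      simpa [grd_apply] using mem_ent (h G) a b
    · change grd G (h G a b) (h G c d) - h G a b * h G c d ∈ ent (h G)
      simp only [grd_apply, L_h]
      exact Nice.quad _ _ (pt G) a b c d

theorem grd_Fl (n : ℕ) {x y : O G} (hx : x ∈ Fl G n) (hy : y ∈ ent (h G)) :
    grd G x y - n * (x * y) ∈ Fl G n := by
  induction n generalizing x with
  | zero => obtain ⟨c, rfl⟩ := mem_zero.1 hx; simp [grd_apply]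
  | succ n ih =>
    refine Fl_ind (P := fun x => grd G x y - (n + 1 : ℕ) * (x * y) ∈ Fl G (n + 1)) hx
      (fun u hu z hz => ?_) fun u z hu hz => ?_
    · convert add_mem (mul_Fl hu (grd_ent hz hy)) (mul_Fl (ih hu) hz) using 1
      rw [grd_mul]; push_cast; ring
    · convert add_mem hu hz using 1
      rw [map_add, LinearMap.add_apply]; ring

theorem cas_Fl : ∃ l : ℕ, 0 < l ∧ ∀ (n : ℕ) {x : O G}, x ∈ Fl G (n + 1) →
    cas G x - ((n + 1) * l + (n + 1) * n : ℕ) * x ∈ Fl G n := by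
  obtain ⟨l, hl, e⟩ := Nice.cas (G := G)
  have h1 : ∀ x ∈ ent (h G), cas G x - l * x ∈ Fl G 0 := fun x hx => by
    refine ent_ind (W := (Fl G 0).comap (cas G - LinearMap.mul ℂ (O G) l)) ?_ (fun a b => ?_) hx
    · change cas G 1 - l * 1 ∈ Fl G 0
      exact mem_zero.2 ⟨-l, by simp [cas_apply]⟩
    · change cas G (h G a b) - l * h G a b ∈ Fl G 0
      have h2 : ∀ i, L G i (L G i (h G a b)) = (h G * cm (O G) (G.β i * G.β i)) a b := fun i => by
        rw [L_h, cm_mul, ← Matrix.mul_assoc, ← map_L, ← der_mul_cm, ← map_L]; rfl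
      rw [cas_apply, Finset.sum_congr rfl fun i _ => h2 i, ← Matrix.sum_apply, ← Matrix.mul_sum,
        ← cm_sum, e, cm_smul, cm_one, Matrix.mul_smul, Matrix.mul_one, Matrix.smul_apply,
        Algebra.smul_def, map_natCast, sub_self]
      exact zero_mem _
  refine ⟨l, hl, fun n => ?_⟩
  induction n with
  | zero =>
    intro x hx
    rw [Fl, zero_add, pow_one] at hx
    simpa using h1 x hx
  | succ n ih =>
    intro x hx
    refine Fl_ind (P := fun x => cas G x - ((n + 1 + 1) * l + (n + 1 + 1) * (n + 1) : ℕ) * x ∈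
      Fl G (n + 1)) hx (fun u hu z hz => ?_) fun u z hu hz => ?_
    · obtain ⟨c, hc⟩ := mem_zero.1 (h1 z hz)
      have h2 := grd_Fl (n + 1) hu hz
      convert add_mem (add_mem (add_mem ((Fl G (n + 1)).smul_mem c hu) h2) h2)
        (mul_Fl (ih hu) hz) using 1
      rw [cas_mul, Algebra.smul_def, hc]; push_cast; ring
    · convert add_mem hu hz using 1
      rw [map_add]; ring

theorem nat_smul_mem {W : Submodule ℂ A} {n : ℕ} (hn : 0 < n) {x : A} (h : n * x ∈ W) : x ∈ W := by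
  have := W.smul_mem (n : ℂ)⁻¹ h
  rwa [← nsmul_eq_mul, ← Nat.cast_smul_eq_nsmul ℂ, smul_smul,
    inv_mul_cancel₀ (Nat.cast_ne_zero.2 hn.ne'), one_smul] at this

theorem mem_sup (x : O G) : x ∈ Fl G 0 ⊔ LinearMap.range (cas G) := by
  obtain ⟨l, hl, H⟩ := cas_Fl (G := G)
  obtain ⟨n, hn⟩ := exists_Fl x
  induction n generalizing x with
  | zero => exact Submodule.mem_sup_left hn
  | succ n ih =>
    refine nat_smul_mem (n := (n + 1) * l + (n + 1) * n) (by positivity) ?_
    have := sub_mem (Submodule.mem_sup_right (S := Fl G 0) (LinearMap.mem_range_self (cas G) x))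
      (ih _ (H n hn))
    rwa [sub_sub_cancel] at this

theorem const_of {x : O G} (hx : cas G x ∈ Fl G 0) : x ∈ Fl G 0 := by
  obtain ⟨l, hl, H⟩ := cas_Fl (G := G)
  obtain ⟨n, hn⟩ := exists_Fl x
  induction n with
  | zero => exact hn
  | succ n ih =>
    refine ih (nat_smul_mem (n := (n + 1) * l + (n + 1) * n) (by positivity) ?_)
    have := sub_mem (Fl_mono (Nat.zero_le n) hx) (H n hn)
    rwa [sub_sub_cancel] at this

theorem exists_haar : ∃ φ : O G →ₗ[ℂ] ℂ, φ 1 = 1 ∧ ∀ x, φ (cas G x) = 0 := by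
  have h1 : (1 : O G) ∉ LinearMap.range (cas G) := by
    rintro ⟨x, hx⟩
    obtain ⟨c, rfl⟩ := mem_zero.1 (const_of (x := x) (hx ▸ mem_zero.2 ⟨1, map_one _⟩))
    simp [cas_apply] at hx
  obtain ⟨φ, h2, h3⟩ := Submodule.exists_dual_map_eq_bot_of_notMem h1 inferInstance
  refine ⟨(φ 1)⁻¹ • φ, inv_mul_cancel₀ h2, fun x => ?_⟩
  have : φ (cas G x) = 0 := by
    rw [← Submodule.mem_bot ℂ, ← h3]
    exact Submodule.mem_map_of_mem (LinearMap.mem_range_self _ x)
  rw [LinearMap.smul_apply, this, smul_zero]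

/-- The invariant integral. -/
def haar (G : Grp) [Nice G] : O G →ₗ[ℂ] ℂ := exists_haar.choose

theorem haar_one : haar G 1 = 1 := exists_haar.choose_spec.1

theorem haar_cas (x : O G) : haar G (cas G x) = 0 := exists_haar.choose_spec.2 x

theorem haar_uniq {M : Type} [AddCommGroup M] [Module ℂ M] (ψ : O G →ₗ[ℂ] M)
    (H : ∀ x, ψ (cas G x) = 0) (x : O G) : ψ x = haar G x • ψ 1 := by
  obtain ⟨_, hc, _, ⟨y, rfl⟩, rfl⟩ := Submodule.mem_sup.1 (mem_sup x)
  obtain ⟨c, rfl⟩ := mem_zero.1 hc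
  rw [map_add, map_add, H, haar_cas, add_zero, add_zero, Algebra.algebraMap_eq_smul_one, map_smul,
    map_smul, haar_one, smul_eq_mul, mul_one]

theorem const (x : O G) (H : ∀ a, L G a x = 0) : ∃ c : ℂ, x = algebraMap ℂ (O G) c := by
  obtain ⟨c, hc⟩ := mem_zero.1 (const_of (x := x) (by simp [cas_apply, H]))
  exact ⟨c, hc.symm⟩

/-- Left translations commute with the left invariant vector fields. -/
theorem lt_L (k : Matrix (Fin G.N) (Fin G.N) B) (φ : O G →ₐ[ℂ] OG G B)
    (H : (h G).map φ = k.map (OG.of G B) * OG.h G B) (a : Fin 3) (x : O G) :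
    φ (L G a x) = lT B (L G a) (φ x) := by
  refine der_ext φ (φ.toLinearMap ∘ₗ (L G a).toLinearMap) ((lT B (L G a)).toLinearMap ∘ₗ φ.toLinearMap)
    (fun x y => by simp) (fun x y => by simp) (fun i j => ?_) x
  have h1 : (k.map (OG.of G B)).map (lT B (L G a)) = 0 := Matrix.ext fun i j => by
    simp [OG.of, lT_tmul]
  have h2 : (OG.h G B).map (lT B (L G a)) = OG.h G B * cm _ (G.β a) := by
    rw [OG.h, cm, ← map_cm (OG.ir G B), ← map_mul', ← map_L]; rfl
  have h3 : ((h G).map (L G a)).map φ = ((h G).map φ).map (lT B (L G a)) := by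
    rw [map_L, map_mul', map_cm, H, der_mul, h1, h2, Matrix.zero_mul, zero_add, Matrix.mul_assoc]
  exact congrFun (congrFun h3 i) j

theorem haar_l (k : Matrix (Fin G.N) (Fin G.N) B) (φ : O G →ₐ[ℂ] OG G B)
    (H : (h G).map φ = k.map (OG.of G B) * OG.h G B) (x : O G) :
    TensorProduct.rid ℂ B ((haar G).lTensor B (φ x)) = algebraMap ℂ B (haar G x) := by
  refine (haar_uniq ((TensorProduct.rid ℂ B).toLinearMap ∘ₗ (haar G).lTensor B ∘ₗ φ.toLinearMap)
    (fun y => ?_) x).trans ?_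
  · have h1 : ∀ z : OG G B, (haar G).lTensor B (∑ a, lT B (L G a) (lT B (L G a) z)) = 0 :=
      fun z => by
      induction z using TensorProduct.induction_on with
      | zero => simp
      | add y z hy hz => simp only [map_add, Finset.sum_add_distrib, hy, hz, add_zero]
      | tmul b y =>
        simp only [lT_tmul]
        rw [← tmul_sum, ← cas_apply, LinearMap.lTensor_tmul, haar_cas, tmul_zero]
    change TensorProduct.rid ℂ B ((haar G).lTensor B (φ (cas G y))) = 0
    rw [cas_apply, map_sum φ]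
    simp only [lt_L k φ H]
    rw [h1, map_zero]
  · change haar G x • TensorProduct.rid ℂ B ((haar G).lTensor B (φ 1)) = _
    rw [map_one, Algebra.TensorProduct.one_def, LinearMap.lTensor_tmul, haar_one, rid_tmul,
      one_smul, Algebra.algebraMap_eq_smul_one]

end O

end

end Vale.Agent.P286EC
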