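import Vale.Agent.P286EC.Basic

/-!
# The properties of `SL_2` and `SO_3`; smoothness
-/

set_option linter.all false

namespace Vale.Agent.P286EC

open Matrix TensorProduct Vale.Agent.P286 Vale.Agent.P286E Vale.Agent.P286EG

noncomputable section

variable {G : Grp} {A B D : Type} [CommRing A] [Algebra ℂ A] [CommRing B] [Algebra ℂ B]
  [CommRing D] [Algebra ℂ D] {N : ℕ}

/-- The span of `1` and of the entries. -/
def ent (k : Matrix (Fin N) (Fin N) A) : Submodule ℂ A :=
  Submodule.span ℂ (insert 1 (Set.range fun p : Fin N × Fin N => k p.1 p.2))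

theorem one_ent (k : Matrix (Fin N) (Fin N) A) : 1 ∈ ent k := Submodule.subset_span (Or.inl rfl)

theorem mem_ent (k : Matrix (Fin N) (Fin N) A) (i j) : k i j ∈ ent k :=
  Submodule.subset_span (Or.inr ⟨(i, j), rfl⟩)

/-- The properties which are used. -/
class Nice (G : Grp) : Prop where
  ok : G.Ok
  sym : ∃ σ : ℂ, σ * σ = 1 ∧ G.Fᵀ = σ • G.F
  cas : ∃ l : ℕ, 0 < l ∧ ∑ i, G.β i * G.β i = (l : ℂ) • 1
  quad : ∀ (A : Type) [CommRing A] [Algebra ℂ A] (k : Matrix (Fin G.N) (Fin G.N) A), G.Pt k →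
    ∀ a b c d, ∑ i, (k * cm A (G.β i)) a b * (k * cm A (G.β i)) c d - k a b * k c d ∈ ent k

theorem alg_I : algebraMap ℂ A Complex.I * algebraMap ℂ A Complex.I = -1 := iota_I _

theorem cas2 : ∑ i, b2 i * b2 i = ((3 : ℕ) : ℂ) • 1 := by
  rw [Fin.sum_univ_three]
  ext a b
  fin_cases a <;> fin_cases b <;> simp [b2, Matrix.mul_apply, Fin.sum_univ_two] <;> norm_num

theorem cas3 : ∑ i, b3 i * b3 i = ((2 : ℕ) : ℂ) • 1 := by
  rw [Fin.sum_univ_three]
  ext a b
  fin_cases a <;> fin_cases b <;> simp [b3, Matrix.mul_apply, Fin.sum_univ_three] <;> norm_num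

theorem vec2 (u v : Fin 2 → A) (b d : Fin 2) :
    ∑ i, (u ᵥ* cm A (b2 i)) b * (v ᵥ* cm A (b2 i)) d - u b * v d = 2 * (u d * v b - u b * v d) := by
  have hI := alg_I (A := A)
  rw [Fin.sum_univ_three]
  fin_cases b <;> fin_cases d <;> simp [b2, vecMul, dotProduct, Fin.sum_univ_two]
  · linear_combination (u 1 * v 1) * hI
  · linear_combination (-(u 1 * v 0)) * hI
  · linear_combination (-(u 0 * v 1)) * hI
  · linear_combination (u 0 * v 0) * hI

theorem vec3 (u v : Fin 3 → A) (b d : Fin 3) :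
    ∑ i, (u ᵥ* cm A (b3 i)) b * (v ᵥ* cm A (b3 i)) d - u b * v d =
      (u d * v b - u b * v d) - (if b = d then u ⬝ᵥ v else 0) := by
  have hI := alg_I (A := A)
  rw [Fin.sum_univ_three]
  fin_cases b <;> fin_cases d <;> simp [b3, vecMul, dotProduct, Fin.sum_univ_three]
  · linear_combination (u 2 * v 2 + u 1 * v 1) * hI
  · linear_combination (-(u 1 * v 0)) * hI
  · linear_combination (-(u 2 * v 0)) * hI
  · linear_combination (-(u 0 * v 1)) * hI
  · linear_combination (u 2 * v 2 + u 0 * v 0) * hI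
  · linear_combination (-(u 2 * v 1)) * hI
  · linear_combination (-(u 0 * v 2)) * hI
  · linear_combination (-(u 1 * v 2)) * hI
  · linear_combination (u 1 * v 1 + u 0 * v 0) * hI

theorem mem_of_eq {W : Submodule ℂ A} {x y : A} (h : y ∈ W) (e : x = y ∨ x = -y ∨ x = 0) :
    x ∈ W := by
  rcases e with rfl | rfl | rfl
  exacts [h, W.neg_mem h, W.zero_mem]

theorem minor2 (k : Matrix (Fin 2) (Fin 2) A) (h : k.det = 1) (a b c d : Fin 2) :
    k a d * k c b - k a b * k c d ∈ ent k := by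
  refine mem_of_eq (one_ent k) ?_
  rw [← h, det_fin_two]
  fin_cases a <;> fin_cases b <;> fin_cases c <;> fin_cases d <;> simp only [Fin.zero_eta,
    Fin.mk_one, Fin.isValue] <;>
    first | (right; right; ring1) | (left; trivial) | (left; ring1) | (right; left; ring1)

theorem minor3 (k : Matrix (Fin 3) (Fin 3) A) (a b c d : Fin 3) :
    k a d * k c b - k a b * k c d ∈ ent k.adjugate := by
  refine mem_of_eq (mem_ent k.adjugate (-(b + d)) (-(a + c))) ?_
  rw [adjugate_fin_three]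
  fin_cases a <;> fin_cases b <;> fin_cases c <;> fin_cases d <;>
    first
      | (right; right; ring1) | (left; simp; done) | (left; simp; ring1)
      | (right; left; simp; done) | (right; left; simp; ring1)

instance : Nice SL2 where
  ok := ok_SL2
  sym := ⟨-1, by norm_num, (by
    ext a b; fin_cases a <;> fin_cases b <;> simp [F2] : F2ᵀ = (-1 : ℂ) • F2)⟩
  cas := ⟨3, by norm_num, cas2⟩
  quad A _ _ (k : Matrix (Fin 2) (Fin 2) A) hk a b c d := by
    refine (vec2 (k a) (k c) b d).symm ▸ ?_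
    rw [two_mul]
    exact add_mem (minor2 k hk.det a b c d) (minor2 k hk.det a b c d)

theorem so3_adj {k : Matrix (Fin 3) (Fin 3) A} (hk : SO3.Pt k) : k.adjugate = kᵀ := by
  have h : kᵀ * cm A (1 : Matrix (Fin 3) (Fin 3) ℂ) = cm A 1 * k.adjugate := pt_form'' hk
  rw [cm_one, Matrix.mul_one, Matrix.one_mul] at h
  exact h.symm

theorem quad3 (k : Matrix (Fin 3) (Fin 3) A) (hk : SO3.Pt k) (a b c d : Fin 3) :
    ∑ i, (k * cm A (b3 i)) a b * (k * cm A (b3 i)) c d - k a b * k c d ∈ ent k := by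
  refine (vec3 (k a) (k c) b d).symm ▸ ?_
  have h1 : ent k.adjugate ≤ ent k := by
    rw [so3_adj hk]
    refine Submodule.span_le.2 ?_
    rintro _ (rfl | ⟨p, rfl⟩)
    exacts [one_ent k, mem_ent k p.2 p.1]
  have h2 : k * kᵀ = 1 := so3_adj hk ▸ pt_mul_adj hk
  refine sub_mem (h1 (minor3 k a b c d)) ?_
  rw [show k a ⬝ᵥ k c = (1 : Matrix (Fin 3) (Fin 3) A) a c from congrFun (congrFun h2 a) c,
    Matrix.one_apply]
  split_ifs
  exacts [one_ent k, zero_mem _, zero_mem _]

instance : Nice SO3 where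
  ok := ok_SO3
  sym := ⟨1, by norm_num, (by rw [transpose_one, one_smul] :
    (1 : Matrix (Fin 3) (Fin 3) ℂ)ᵀ = (1 : ℂ) • 1)⟩
  cas := ⟨2, by norm_num, cas3⟩
  quad A _ _ := quad3

theorem Nice.of (h : G = SL2 ∨ G = SO3) : Nice G := by
  rcases h with rfl | rfl <;> infer_instance

/-! ### Smoothness -/

/-- The entries lie in the ideal. -/
def InI (I : Ideal A) (m : Matrix (Fin N) (Fin N) A) : Prop := ∀ i j, m i j ∈ I

theorem InI.mul_left {I : Ideal A} {m : Matrix (Fin N) (Fin N) A} (h : InI I m)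
    (n : Matrix (Fin N) (Fin N) A) : InI I (n * m) := fun i j => by
  rw [Matrix.mul_apply]
  exact I.sum_mem fun l _ => I.mul_mem_left _ (h l j)

theorem InI.mul_right {I : Ideal A} {m : Matrix (Fin N) (Fin N) A} (h : InI I m)
    (n : Matrix (Fin N) (Fin N) A) : InI I (m * n) := fun i j => by
  rw [Matrix.mul_apply]
  exact I.sum_mem fun l _ => I.mul_mem_right _ (h i l)

theorem InI.mul {I : Ideal A} (hI : I ^ 2 = ⊥) {m n : Matrix (Fin N) (Fin N) A} (h : InI I m)
    (h' : InI I n) : m * n = 0 := Matrix.ext fun i j => by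
  rw [Matrix.mul_apply, Matrix.zero_apply]
  refine Finset.sum_eq_zero fun l _ => ?_
  have := Ideal.mul_mem_mul (h i l) (h' l j)
  rwa [← pow_two, hI] at this

theorem adjF [Nice G] : cm A G.F * cm A G.F.adjugate = 1 := by
  rw [← cm_mul, mul_adjugate, Nice.ok.det, one_smul, cm_one]

theorem adjF' [Nice G] : cm A G.F.adjugate * cm A G.F = 1 := by
  rw [← cm_mul, adjugate_mul, Nice.ok.det, one_smul, cm_one]

/-- Points lift along square zero extensions. -/
theorem pt_lift [Nice G] (I : Ideal A) (hI : I ^ 2 = ⊥) {k : Matrix (Fin G.N) (Fin G.N) (A ⧸ I)}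
    (hk : G.Pt k) : ∃ l, G.Pt l ∧ l.map (Ideal.Quotient.mkₐ ℂ I) = k := by
  obtain ⟨σ, hσ, hF⟩ := Nice.sym (G := G)
  choose k0 hk0 using fun i j => Ideal.Quotient.mk_surjective (k i j)
  obtain ⟨l, hl⟩ : ∃ l : Matrix (Fin G.N) (Fin G.N) A, l.map (Ideal.Quotient.mkₐ ℂ I) = k :=
    ⟨of k0, Matrix.ext hk0⟩
  obtain ⟨e, he⟩ : ∃ e, e = lᵀ * cm A G.F * l - cm A G.F := ⟨_, rfl⟩
  have h1 : InI I e := fun i j => by
    have h := congrFun (congrFun hk.form i) j
    rw [← hl, ← map_cm (Ideal.Quotient.mkₐ ℂ I), ← transpose_map, ← map_mul', ← map_mul'] at h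
    rw [he]
    exact Ideal.Quotient.eq.1 h
  have hF' : (cm A G.F)ᵀ = σ • cm A G.F := by rw [cm_tr, hF, cm_smul]
  have h2 : eᵀ = σ • e := by
    rw [he, transpose_sub, transpose_mul, transpose_mul, transpose_transpose, hF', smul_sub,
      Matrix.smul_mul, Matrix.mul_smul, Matrix.mul_assoc]
  obtain ⟨x, hx⟩ : ∃ x, x = (2⁻¹ : ℂ) • (cm A G.F.adjugate * e) := ⟨_, rfl⟩
  have h3 : InI I x := fun i j => by
    rw [hx, Matrix.smul_apply, Algebra.smul_def]
    exact I.mul_mem_left _ (h1.mul_left _ i j)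
  have h4 : cm A G.F * x = (2⁻¹ : ℂ) • e := by
    rw [hx, Matrix.mul_smul, ← Matrix.mul_assoc, adjF, Matrix.one_mul]
  have h5 : xᵀ * cm A G.F = (2⁻¹ : ℂ) • e := by
    have h := congrArg (fun m => σ • mᵀ) h4
    simp only [transpose_mul, hF', transpose_smul, h2, Matrix.mul_smul, smul_smul] at h
    rw [hσ, one_smul, mul_left_comm, hσ, mul_one] at h
    exact h
  have h6 : InI I xᵀ := fun i j => h3 j i
  have h7 : (l * (1 - x))ᵀ * cm A G.F * (l * (1 - x)) = cm A G.F := by
    rw [transpose_mul, Matrix.mul_assoc, Matrix.mul_assoc, ← Matrix.mul_assoc (cm A G.F),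
      ← Matrix.mul_assoc lᵀ, ← Matrix.mul_assoc lᵀ, (sub_eq_iff_eq_add.1 he.symm), transpose_sub,
      transpose_one]
    simp only [Matrix.mul_sub, Matrix.sub_mul, Matrix.mul_add, Matrix.add_mul, Matrix.one_mul,
      Matrix.mul_one, h4, h5, h1.mul hI h3, h6.mul hI h1, Matrix.mul_smul, Matrix.mul_zero]
    module
  have h8 : (l * (1 - x)).map (Ideal.Quotient.mkₐ ℂ I) = k := by
    rw [← hl]
    refine Matrix.ext fun i j => Ideal.Quotient.eq.2 ?_
    rw [Matrix.mul_sub, Matrix.mul_one, Matrix.sub_apply, sub_sub_cancel_left]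
    exact I.neg_mem (h3.mul_left l i j)
  refine ⟨l * (1 - x), ⟨?_, h7⟩, h8⟩
  have h9 := congrArg det h7
  rw [det_mul, det_mul, det_transpose, det_cm, Nice.ok.det, map_one, mul_one] at h9
  have h10 : (l * (1 - x)).det - 1 ∈ I := by
    refine Ideal.Quotient.eq.1 ?_
    have h := map_det' (Ideal.Quotient.mkₐ ℂ I) (l * (1 - x))
    rw [h8, hk.det] at h
    exact h.symm
  have h11 := Ideal.mul_mem_mul h10 h10
  rw [← pow_two, hI, Ideal.mem_bot] at h11
  have h12 := iota_half (algebraMap ℂ A)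
  linear_combination algebraMap ℂ A 2⁻¹ * (h9 - h11) - ((l * (1 - x)).det - 1) * h12

instance [Nice G] : Algebra.Smooth ℂ (O G) where
  formallySmooth := Algebra.FormallySmooth.of_comp_surjective fun B _ _ I hI f => by
    obtain ⟨l, hl, e⟩ := pt_lift I hI ((O.pt G).map f)
    refine ⟨O.lift hl, O.hom_ext (Matrix.ext fun i j => ?_)⟩
    rw [← e]
    exact congrArg (Ideal.Quotient.mkₐ ℂ I) (O.lift_h hl i j)

instance [Nice G] [Algebra.Smooth ℂ A] : Algebra.Smooth ℂ (OG G A) :=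
  Algebra.Smooth.comp ℂ A (OG G A)

/-- The smooth algebra of `Spec A × G`. -/
abbrev sg (G : Grp) [Nice G] (A : SmAlg) : SmAlg := ⟨OG G A.R⟩

end

end Vale.Agent.P286EC
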